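import Vale.Agent.P159.TM.H339.Kap
import Vale.Agent.P159.TM.H129.Bare
import Vale.Agent.P159.TM.H821.Model

/-!
Rows C1 / BAD, instance: gradient weights on a finite graph satisfy `Good` (H821), and bare
domination with a mass form (H129).
-/

open MeasureTheory Filter Topology

namespace Vale.Agent.P159.TM.H339

open Vale.Agent.P159.TM
open Vale.Agent.P159.H353 (wI wI_nonneg wI_anti wI_zero_pos)

variable {V E : Type} [Fintype V] [Fintype E]

/-- gradient weight of a finite graph -/
noncomputable def Wg (s t : E → V) (b : ℝ) (h : V → ℤ) : ℝ := ∏ e, wI b (h (t e) - h (s e))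

lemma Wg_nonneg (s t : E → V) {b : ℝ} (hb : 0 ≤ b) (h : V → ℤ) : 0 ≤ Wg s t b h :=
  Finset.prod_nonneg fun _ _ => wI_nonneg hb _

lemma Wg_le (s t : E → V) {b : ℝ} (hb : 0 ≤ b) (h : V → ℤ) :
    Wg s t b h ≤ wI b 0 ^ Fintype.card E := by
  unfold Wg
  calc ∏ e, wI b (h (t e) - h (s e)) ≤ ∏ _e : E, wI b 0 :=
        Finset.prod_le_prod (fun e _ => wI_nonneg hb _) fun e _ => wI_anti hb (by simp)
    _ = _ := by rw [Finset.prod_const, Finset.card_univ]

lemma par_any (A : (V → ℝ) →ₗ[ℝ] (V → ℝ)) (f g : V → ℝ) :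
    qf A (f + g) + qf A (f - g) = 2 * qf A f + 2 * qf A g := by
  simp only [qf, map_sub, map_add, sub_dotProduct, dotProduct_sub, add_dotProduct,
    dotProduct_add]
  ring

/-- the mass factor in `[0,∞]` is DUP -/
lemma dup_qf (A : (V → ℝ) →ₗ[ℝ] (V → ℝ)) :
    H821.Dup (fun u : V → ℝ => ENNReal.ofReal (Real.exp (-(1 / 2) * qf A u))) := by
  refine H821.dup_exp (fun u : V → ℝ => -(1 / 2) * qf A u) (fun u => -(1 / 4) * qf A u) ?_
  intro x y
  have := par_any A x y
  linarith

/-- **gradient weights are good** -/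
theorem good_graph (s t : E → V) {b : ℝ} (hb : 0 ≤ b) :
    Good (Wg s t b) (wI b 0 ^ Fintype.card E) where
  nonneg := Wg_nonneg s t hb
  le := Wg_le s t hb
  pos := ⟨0, by
    unfold Wg
    refine Finset.prod_pos fun e _ => ?_
    simpa using wI_zero_pos hb⟩
  gin := by
    intro A c hA f g
    set I : E → ℤ → ENNReal := fun _ n => ENNReal.ofReal (wI b n) with hI
    set J : Empty → ℤ → ENNReal := fun _ _ => 1 with hJ
    set M : (V → ℝ) → ENNReal := fun u => ENNReal.ofReal (Real.exp (-(1 / 2) * qf A u)) with hM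
    have hG := H821.gin (s := s) (t := t) (I := I) (pt := fun p : Empty => p.elim) (J := J)
      (M := M) (fun _ => H821.dup_wI hb) (fun p => p.elim) (dup_qf A) 0 0 f g 0 0
    have hZ : ∀ u : V → ℝ, H821.Zt s t I (fun p : Empty => p.elim) J M 0 u 0 =
        ENNReal.ofReal (ZF (Wg s t b) A u) := by
      intro u
      have hsum := summable_ZF (Wg_nonneg s t hb) (Wg_le s t hb) hA.pos hA.low u
      rw [ZF, ENNReal.ofReal_tsum_of_nonneg (fun h => mul_nonneg (Wg_nonneg s t hb h)
        (Real.exp_nonneg _)) hsum]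
      unfold H821.Zt H821.Wt
      refine tsum_congr fun h => ?_
      rw [Finset.univ_eq_empty, Finset.prod_empty, one_mul]
      rw [ENNReal.ofReal_mul (Wg_nonneg s t hb h)]
      unfold Wg
      rw [ENNReal.ofReal_prod_of_nonneg fun e _ => wI_nonneg hb _]
      congr 1
      have e1 : (fun x => (h x : ℝ) - u x) = rl h - u := rfl
      rw [e1, hM]
      simp
    simp only [hZ, add_zero, sub_zero] at hG
    have p0 := ENNReal.ofReal_mul (p := ZF (Wg s t b) A f)
      (q := ZF (Wg s t b) A g) (tsum_nonneg fun h => mul_nonneg (Wg_nonneg s t hb h)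
        (Real.exp_nonneg _))
    have n : ∀ u, 0 ≤ ZF (Wg s t b) A u := fun u =>
      tsum_nonneg fun h => mul_nonneg (Wg_nonneg s t hb h) (Real.exp_nonneg _)
    rw [← ENNReal.ofReal_mul (n _), ← ENNReal.ofReal_pow (mul_nonneg (n _) (n _)),
      ← ENNReal.ofReal_pow (n _), ← ENNReal.ofReal_mul (n _),
      ← ENNReal.ofReal_mul (pow_nonneg (n _) 2)] at hG
    have hG2 := (ENNReal.ofReal_le_ofReal_iff (by
      have := n (f + g)
      have := n (f - g)
      have := n 0
      positivity)).1 hG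
    calc (ZF (Wg s t b) A f * ZF (Wg s t b) A g) ^ 2 ≤ _ := hG2
      _ = _ := by ring

lemma Wg_even (s t : E → V) (b : ℝ) (h : V → ℤ) : Wg s t b (-h) = Wg s t b h := by
  unfold Wg
  refine Finset.prod_congr rfl fun e _ => ?_
  rw [← Vale.Agent.P159.H353.wI_neg b (h (t e) - h (s e))]
  congr 1
  simp only [Pi.neg_apply]
  ring

/-- a mass form is a positive definite weight -/
theorem pd_form [DecidableEq V] {A : (V → ℝ) →ₗ[ℝ] (V → ℝ)} {e : ℝ} (hA : FormGe A e) :
    H129.PD (fun h : V → ℤ => Real.exp (-(1 / 2) * qf A (rl h))) := by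
  classical
  set D : (V → ℝ) →ₗ[ℝ] (V → ℝ) := A - e • LinearMap.id with hD
  have hqD : ∀ u, qf D u = qf A u - e * ns u := fun u => by
    simp [hD, qf, dotProduct_sub, dotProduct_smul, smul_eq_mul, ns_eq]
  obtain ⟨m, v, hv⟩ := sum_squares (D := D) (fun u w => by
    simp only [hD, LinearMap.sub_apply, LinearMap.smul_apply, LinearMap.id_apply,
      dotProduct_sub, dotProduct_smul, smul_eq_mul]
    rw [hA.sym u w, dotProduct_comm u w]) (fun u => by
      rw [hqD]; linarith [hA.low u])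
  have key : ∀ S : Finset (Fin m), H129.PD (fun h : V → ℤ =>
      Real.exp (-(e / 2) * ns (rl h)) * Real.exp (-(1 / 2) * ∑ i ∈ S, (v i ⬝ᵥ rl h) ^ 2)) := by
    intro S
    induction S using Finset.induction_on with
    | empty =>
      have h := H129.PD.mass (V := V) (X := ∅) (m := fun _ => e) (fun _ _ => hA.pos)
      have e1 : H129.mass (∅ : Set V) (fun _ => e) = fun h : V → ℤ =>
          Real.exp (-(e / 2) * ns (rl h)) * Real.exp (-(1 / 2) *
            ∑ i ∈ (∅ : Finset (Fin m)), (v i ⬝ᵥ rl h) ^ 2) := by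
        funext h
        rw [Finset.sum_empty, mul_zero, Real.exp_zero, mul_one, exp_ns]
        unfold H129.mass
        refine Finset.prod_congr rfl fun x _ => ?_
        rw [if_neg (Set.notMem_empty x)]
        rfl
      rw [← e1]
      exact h
    | insert i S hi ih =>
      have h := ih.mul_gauss (v i) (v := 1) zero_le_one
      have e1 : (fun h : V → ℤ => Real.exp (-(e / 2) * ns (rl h)) * Real.exp (-(1 / 2) *
          ∑ j ∈ insert i S, (v j ⬝ᵥ rl h) ^ 2)) = fun h =>
          Real.exp (-(e / 2) * ns (rl h)) * Real.exp (-(1 / 2) * ∑ j ∈ S, (v j ⬝ᵥ rl h) ^ 2) *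
            Real.exp (-(1 / 2) * H129.ip (v i) h ^ 2) := by
        funext h
        have h0 : H129.ip (v i) h = v i ⬝ᵥ rl h := rfl
        rw [Finset.sum_insert hi, h0, ← Real.exp_add, ← Real.exp_add, ← Real.exp_add]
        congr 1
        ring
      rw [e1]
      exact h
  have h := key Finset.univ
  have e1 : (fun h : V → ℤ => Real.exp (-(e / 2) * ns (rl h)) * Real.exp (-(1 / 2) *
      ∑ i ∈ Finset.univ, (v i ⬝ᵥ rl h) ^ 2)) = fun h => Real.exp (-(1 / 2) * qf A (rl h)) := by
    funext h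
    rw [← Real.exp_add, ← hv, hqD]
    congr 1
    ring
  rw [e1] at h
  exact h

/-- **bare domination with a mass form** -/
theorem bare_form [DecidableEq V] (s t : E → V) {b : ℝ} (hb : 0 ≤ b)
    {A : (V → ℝ) →ₗ[ℝ] (V → ℝ)} {e : ℝ} (hA : FormGe A e) (c : E → ℝ) (β : V → ℝ)
    (hβ : ∀ h : V → ℤ, β ⬝ᵥ rl h = ∑ e, c e * ((h (t e) : ℝ) - h (s e))) :
    ∑' h : V → ℤ, Wg s t b h * Real.exp (-(1 / 2) * qf A (rl h)) * Real.exp (β ⬝ᵥ rl h) ≤
      Real.exp (∑ e, b * (Real.cosh (c e) - 1)) * ZF (Wg s t b) A 0 := by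
  set D : E → V → ℤ := fun e x => (if x = t e then 1 else 0) - (if x = s e then 1 else 0) with hD
  have hnn : ∀ (h : V → ℤ) (e : E), H129.nn D h e = h (t e) - h (s e) := by
    intro h e
    unfold H129.nn
    simp [hD, sub_mul, Finset.sum_sub_distrib]
  have h := H129.bare_exp (pd_form hA) D (J := fun _ => b) (fun _ => hb) c
  have e1 : H129.Zs (fun h : V → ℤ => Real.exp (-(1 / 2) * qf A (rl h))) D (fun _ => b)
      (fun h => Real.exp (H129.lc D c h)) =
      ∑' h : V → ℤ, Wg s t b h * Real.exp (-(1 / 2) * qf A (rl h)) *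
        Real.exp (β ⬝ᵥ rl h) := by
    unfold H129.Zs
    refine tsum_congr fun h => ?_
    have e2 : H129.lc D c h = β ⬝ᵥ rl h := by
      rw [hβ]
      unfold H129.lc
      refine Finset.sum_congr rfl fun e _ => ?_
      rw [hnn]
      push_cast
      ring
    simp only [e2, hnn]
    unfold Wg
    ring
  have e3 : H129.Zs (fun h : V → ℤ => Real.exp (-(1 / 2) * qf A (rl h))) D (fun _ => b)
      (fun _ => 1) = ZF (Wg s t b) A 0 := by
    unfold H129.Zs ZF
    refine tsum_congr fun h => ?_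
    simp only [hnn, sub_zero]
    unfold Wg
    ring
  rw [e1, e3] at h
  exact h

end Vale.Agent.P159.TM.H339
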