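import Vale.Agent.P159.TM.H339.BadT

/-!
Row BAD (= EXC), final form in the letters of `Spec/C` (`wT`, `ms`, `LipT`, `QU`, `Kn`), 365 (`AA`),
104 / 845 (`rho`).
-/

open MeasureTheory Filter Topology

namespace Vale.Agent.P159.TM.H339

open Vale.Agent.P159.TM
open Vale.Agent.P159.TM.SpecC (Tor wT ms LipT QU Kn)
open Vale.Agent.P159.TM.H365 (AA)

/-- the rate -/
noncomputable def c0 (L bb : ℝ) : ℝ := L ^ 2 / (100 + 400 * bb)

lemma c0_pos {L bb : ℝ} (hL : 0 < L) (hb : 0 < bb) : 0 < c0 L bb := by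
  unfold c0
  positivity

lemma p1_le {K ξ r : ℕ} (hK : 2 ≤ K) (hξ : 0 < ξ) (hr2 : ξ ≤ 2 * r + 1) {bb L : ℝ}
    (hbb0 : 0 < bb) (hL : 0 ≤ L) :
    p1 bb (1 / (ξ : ℝ) ^ 2) (K * ξ) r (L * ((K : ℝ) - 1) / 5)
      (L * ((K : ℝ) - 1) / 5 / (2 * bb * K)) (L * ((K : ℝ) - 1) / 5) ≤
      6 * Real.exp (-(c0 L bb * K)) := by
  have hK' : (2 : ℝ) ≤ K := by exact_mod_cast hK
  have hξ' : (0 : ℝ) < ξ := by exact_mod_cast hξ
  have hr' : (ξ : ℝ) ≤ ((2 * r + 1 : ℕ) : ℝ) := by exact_mod_cast hr2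
  have hr0 : (0 : ℝ) < ((2 * r + 1 : ℕ) : ℝ) := by positivity
  set R : ℝ := ((2 * r + 1 : ℕ) : ℝ) with hR
  set s : ℝ := L * ((K : ℝ) - 1) / 5 with hs
  have hsK : L * K / 10 ≤ s := by
    rw [hs]
    nlinarith
  have hs0 : 0 ≤ s := by
    rw [hs]
    have : 0 ≤ (K : ℝ) - 1 := by linarith
    positivity
  have hs2 : L ^ 2 * K ^ 2 / 100 ≤ s ^ 2 := by
    have h1 : 0 ≤ L * K / 10 := by positivity
    have h2 := pow_le_pow_left₀ h1 hsK 2
    calc L ^ 2 * (K : ℝ) ^ 2 / 100 = (L * K / 10) ^ 2 := by ring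
      _ ≤ s ^ 2 := h2
  have hc : c0 L bb * (100 + 400 * bb) = L ^ 2 := by
    unfold c0
    field_simp
  have hc0 : 0 ≤ c0 L bb := by
    unfold c0
    positivity
  have hKpos : (0 : ℝ) < K := by linarith
  have h1 : s ^ 2 * (1 / R ^ 2) / (2 * (1 / (ξ : ℝ) ^ 2)) - s * s ≤ -(c0 L bb * K) := by
    have e1 : s ^ 2 * (1 / R ^ 2) / (2 * (1 / (ξ : ℝ) ^ 2)) ≤ s ^ 2 / 2 := by
      have e2 : s ^ 2 * (1 / R ^ 2) / (2 * (1 / (ξ : ℝ) ^ 2)) =
          s ^ 2 / 2 * ((ξ : ℝ) ^ 2 / R ^ 2) := by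
        field_simp
      rw [e2]
      have e3 : (ξ : ℝ) ^ 2 / R ^ 2 ≤ 1 := by
        rw [div_le_one (by positivity)]
        exact pow_le_pow_left₀ hξ'.le hr' 2
      have : 0 ≤ s ^ 2 / 2 := by positivity
      nlinarith
    have e4 : c0 L bb * K ≤ L ^ 2 * K ^ 2 / 200 := by
      have a1 : c0 L bb * 100 ≤ L ^ 2 := by nlinarith
      have a2 : (K : ℝ) * 2 ≤ K ^ 2 := by nlinarith
      have a3 := mul_le_mul a1 a2 (by positivity) (by positivity)
      nlinarith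
    nlinarith
  have h2 : bb * ((s / (2 * bb * K)) ^ 2 * (((K * ξ : ℕ) : ℝ) / R)) + -(s / (2 * bb * K) * s) ≤
      -(c0 L bb * K) := by
    have e1 : ((K * ξ : ℕ) : ℝ) / R ≤ K := by
      rw [div_le_iff₀ hr0]
      push_cast
      exact mul_le_mul_of_nonneg_left hr' hKpos.le
    have e2 : bb * ((s / (2 * bb * K)) ^ 2 * (((K * ξ : ℕ) : ℝ) / R)) ≤
        bb * ((s / (2 * bb * K)) ^ 2 * K) :=
      mul_le_mul_of_nonneg_left (mul_le_mul_of_nonneg_left e1 (sq_nonneg _)) hbb0.le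
    have e3 : bb * ((s / (2 * bb * K)) ^ 2 * K) + -(s / (2 * bb * K) * s) =
        -(s ^ 2 / (4 * bb * K)) := by
      field_simp
      ring
    have e4 : c0 L bb * K ≤ s ^ 2 / (4 * bb * K) := by
      rw [le_div_iff₀ (by positivity)]
      have a1 : c0 L bb * (400 * bb) ≤ L ^ 2 := by nlinarith
      have a2 : c0 L bb * K * (4 * bb * K) = c0 L bb * (400 * bb) * K ^ 2 / 100 := by ring
      rw [a2]
      refine le_trans ?_ hs2
      have := mul_le_mul_of_nonneg_right a1 (sq_nonneg (K : ℝ))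
      linarith
    linarith
  unfold p1
  rw [mul_assoc 2, ← Real.exp_add]
  have b1 := Real.exp_le_exp.2 h1
  have b2 := Real.exp_le_exp.2 h2
  linarith

/-- **row BAD = EXC, final form**: the coarse field has slope `L/ξ` off an event of probability
`20 M² exp(-c0 K)` -/
theorem bad_T {K M ξ N r : ℕ} [NeZero N] [NeZero M] (hN : N = K * M * ξ) (hK : 2 ≤ K)
    (hξ : 0 < ξ) (hr1 : 2 * r ≤ ξ) (hr2 : ξ ≤ 2 * r + 1) {b bb L y a s2 : ℝ} (hb : 0 ≤ b)
    (hbb : b ≤ bb) (hbb0 : 0 < bb) (hL : 0 ≤ L) (hLξ : L ≤ 10 * bb * ξ)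
    (hQ : QU (wT b N) ξ y a) (hy : y * ((K : ℝ) * M) ^ 2 ≤ 1) (hs2 : 0 < s2) :
    ∫ G in {G : Tor M → ℝ | ¬ LipT (L / ξ) (AA (K * ξ) r G : Tor N → ℝ)},
      H845.rho (wT b N) (ms ξ) (AA (N := N) (K * ξ) r) s2 G ≤
      20 * (M : ℝ) ^ 2 * Real.exp (-(c0 L bb * K)) *
        ∫ G : Tor M → ℝ, H845.rho (wT b N) (ms ξ) (AA (N := N) (K * ξ) r) s2 G := by
  have hK' : (2 : ℝ) ≤ K := by exact_mod_cast hK
  have hKpos : (0 : ℝ) < K := by linarith
  have hξ' : (0 : ℝ) < ξ := by exact_mod_cast hξ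
  have hr' : (ξ : ℝ) ≤ ((2 * r + 1 : ℕ) : ℝ) := by exact_mod_cast hr2
  have hN' : N = M * (K * ξ) := by rw [hN]; ring
  have hrl : 2 * r < K * ξ := by
    calc 2 * r ≤ ξ := hr1
      _ < 2 * ξ := by omega
      _ ≤ K * ξ := Nat.mul_le_mul_right ξ hK
  set s : ℝ := L * ((K : ℝ) - 1) / 5 with hs
  have hs0 : 0 ≤ s := by
    rw [hs]
    have : 0 ≤ (K : ℝ) - 1 := by linarith
    positivity
  have hslope : Real.sqrt 2 * (3 * s) ≤ L / ξ * (((K * ξ : ℕ) : ℝ) - 2 * r) := by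
    have e1 : Real.sqrt 2 ≤ 1.5 := by
      rw [Real.sqrt_le_left (by norm_num)]
      norm_num
    have e2 : (2 : ℝ) * r ≤ ξ := by exact_mod_cast hr1
    have e3 : ((K : ℝ) - 1) * ξ ≤ ((K * ξ : ℕ) : ℝ) - 2 * r := by
      push_cast
      linarith
    calc Real.sqrt 2 * (3 * s) ≤ 1.5 * (3 * s) :=
          mul_le_mul_of_nonneg_right e1 (by positivity)
      _ ≤ L * ((K : ℝ) - 1) := by
          have : 0 ≤ L * ((K : ℝ) - 1) := mul_nonneg hL (by linarith)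
          rw [hs]
          linarith
      _ = L / ξ * (((K : ℝ) - 1) * ξ) := by field_simp
      _ ≤ _ := mul_le_mul_of_nonneg_left e3 (by positivity)
  have hτr : s / (2 * bb * K) ≤ ((2 * r + 1 : ℕ) : ℝ) := by
    refine le_trans ?_ hr'
    rw [div_le_iff₀ (by positivity), hs]
    have h1 : L * ((K : ℝ) - 1) ≤ L * K := mul_le_mul_of_nonneg_left (by linarith) hL
    have h2 := mul_le_mul_of_nonneg_right hLξ hKpos.le
    nlinarith
  have h := bad_rho (N := N) hN' hrl hb hbb hξ' hs2 hs0 hslope hs0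
    (by positivity : 0 ≤ s / (2 * bb * K)) hτr
  refine h.trans (mul_le_mul_of_nonneg_right ?_ ?_)
  · have hκ : H871.kap (wT b N) (ms (N := N) ξ) ≤ 1 := by
      refine (H870.kap_le hQ).trans (le_trans (le_of_eq ?_) hy)
      rw [hN]
      push_cast
      field_simp
    have h1 : Real.exp (H871.kap (wT b N) (ms (N := N) ξ) / 2) ≤ 5 / 3 := by
      have e1 : Real.exp (H871.kap (wT b N) (ms (N := N) ξ) / 2) ≤ Real.exp (1 / 2) :=
        Real.exp_le_exp.2 (by linarith)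
      have e2 : Real.exp (1 / 2) ^ 2 ≤ (5 / 3) ^ 2 := by
        rw [← Real.exp_nat_mul]
        have := Real.exp_one_lt_d9
        norm_num
        norm_num at this
        linarith
      exact e1.trans ((pow_le_pow_iff_left₀ (Real.exp_pos _).le (by norm_num) two_ne_zero).1 e2)
    have h2 := p1_le (r := r) hK hξ hr2 hbb0 hL
    have h3 : 0 < p1 bb (1 / (ξ : ℝ) ^ 2) (K * ξ) r s (s / (2 * bb * K)) s := p1_pos
    calc Real.exp (H871.kap (wT b N) (ms (N := N) ξ) / 2) *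
          (2 * (M : ℝ) ^ 2 * p1 bb (1 / (ξ : ℝ) ^ 2) (K * ξ) r s (s / (2 * bb * K)) s)
        ≤ 5 / 3 * (2 * (M : ℝ) ^ 2 * (6 * Real.exp (-(c0 L bb * K)))) := by
          refine mul_le_mul h1 (mul_le_mul_of_nonneg_left h2 (by positivity)) (by positivity)
            (by norm_num)
      _ = 20 * (M : ℝ) ^ 2 * Real.exp (-(c0 L bb * K)) := by ring
  · exact integral_nonneg fun G => (H845.rho_pos _ _ _ _ G).le

/-- `exp(-c K) ≤ y^(c k)` for `K = Kn k y` -/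
lemma exp_Kn {c y : ℝ} (hc : 0 ≤ c) (hy : 0 < y) (k : ℕ) :
    Real.exp (-(c * (Kn k y : ℝ))) ≤ y ^ (c * k) := by
  have h1 : (k : ℝ) * Real.log (1 / y) ≤ (Kn k y : ℝ) := by
    unfold SpecC.Kn
    push_cast
    linarith [Nat.le_ceil ((k : ℝ) * Real.log (1 / y))]
  rw [Real.rpow_def_of_pos hy]
  refine Real.exp_le_exp.2 ?_
  have h2 : Real.log (1 / y) = -Real.log y := by rw [one_div, Real.log_inv]
  rw [h2] at h1
  nlinarith [mul_le_mul_of_nonneg_left h1 hc]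

end Vale.Agent.P159.TM.H339
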