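import Vale.Agent.P159.TM.H339.Kap
import Vale.Agent.P159.TM.H104.Mass

/-!
Row C1, final form, in the letters of `H104/Mass` (`ddU`) and `H416` (`m2`).
-/

open MeasureTheory Filter Topology

namespace Vale.Agent.P159.TM.H339

open Vale.Agent.P159.TM

variable {V C : Type} [Fintype V] [Fintype C]

lemma Zr_eq_Ze (W : (V → ℤ) → ℝ) (ε : ℝ) (f : V → ℝ) :
    H870.Zr W (fun _ => ε) f = Ze W ε f := by
  unfold H870.Zr Ze
  refine tsum_congr fun h => ?_
  unfold H870.gr ns rl
  congr 2
  rw [Finset.mul_sum, ← Finset.sum_neg_distrib]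
  refine Finset.sum_congr rfl fun x _ => ?_
  simp only [Pi.sub_apply]
  ring

/-- second derivative of `U` at zero background in the direction of constants -/
lemma ddU_one {W : (V → ℤ) → ℝ} (hev : ∀ h, W (-h) = W h) (e : ℝ) :
    H104.ddU W (fun _ => e) 0 (fun _ => 1) (fun _ => 1) =
      e * Fintype.card V -
        e ^ 2 * H416.m2 (fun h => W h * Real.exp (-(e / 2) * ns (rl h))) (fun _ => 1) := by
  have hgr : ∀ h : V → ℤ, H870.gr (fun _ => e) h 0 = Real.exp (-(e / 2) * ns (rl h)) := by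
    intro h
    unfold H870.gr ns rl
    congr 1
    rw [Finset.mul_sum, ← Finset.sum_neg_distrib]
    refine Finset.sum_congr rfl fun x _ => ?_
    simp only [Pi.zero_apply, sub_zero]
    ring
  have hlin : ∀ h : V → ℤ, H870.lin (fun _ => e) (fun _ => 1) h =
      e * H416.pr (fun _ => 1) h := by
    intro h
    unfold H870.lin H416.pr
    rw [Finset.mul_sum]
    refine Finset.sum_congr rfl fun x _ => ?_
    ring
  have hmean : H870.Ex W (fun _ => e) 0 (H870.lin (fun _ => e) (fun _ => 1)) = 0 := by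
    unfold H870.Ex
    have h0 : ∑' h, W h * H870.gr (fun _ => e) h 0 * H870.lin (fun _ => e) (fun _ => 1) h = 0 := by
      have h1 : ∑' h : V → ℤ, W h * H870.gr (fun _ => e) h 0 *
          H870.lin (fun _ => e) (fun _ => 1) h =
          ∑' h : V → ℤ, -(W h * H870.gr (fun _ => e) h 0 *
            H870.lin (fun _ => e) (fun _ => 1) h) := by
        rw [← (Equiv.neg (V → ℤ)).tsum_eq]
        refine tsum_congr fun h => ?_
        simp only [Equiv.neg_apply]
        rw [hev, hgr, hgr, hlin, hlin]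
        have e1 : ns (rl (-h)) = ns (rl h) := by
          unfold ns rl
          refine Finset.sum_congr rfl fun x _ => ?_
          simp
        have e2 : H416.pr (fun _ => 1) (-h) = -H416.pr (fun _ => 1) h := by
          unfold H416.pr
          rw [← Finset.sum_neg_distrib]
          refine Finset.sum_congr rfl fun x _ => ?_
          simp
        rw [e1, e2]
        ring
      rw [tsum_neg] at h1
      linarith
    rw [h0, zero_div]
  unfold H104.ddU H104.Cf
  rw [hmean]
  have hsq : H870.Ex W (fun _ => e) 0 (fun h => H870.lin (fun _ => e) (fun _ => 1) h *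
      H870.lin (fun _ => e) (fun _ => 1) h) =
      e ^ 2 * H416.m2 (fun h => W h * Real.exp (-(e / 2) * ns (rl h))) (fun _ => 1) := by
    unfold H870.Ex H416.m2 H870.Zr
    simp only [hgr, hlin]
    rw [← mul_div_assoc, ← tsum_mul_left]
    congr 1
    refine tsum_congr fun h => ?_
    ring
  rw [hsq]
  simp [mul_comm]

/-- **C1**: the zero charge energy at mass `e = εσ/(εK+σ)` is at most the one of the coarse mass
form -/
theorem C1_main [DecidableEq V] {φ : (C → ℝ) →ₗ[ℝ] (V → ℝ)} {ψ : (V → ℝ) →ₗ[ℝ] (C → ℝ)}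
    {R : (C → ℝ) →ₗ[ℝ] (C → ℝ)} {ε σ : ℝ} (H : CC φ ψ R ε σ) {K : ℝ} (hK : 0 < K)
    (hS : ∀ G, ns (φ G) ≤ K * ns G) {W : (V → ℤ) → ℝ} {B : ℝ} (hW : Good W B)
    (hev : ∀ h, W (-h) = W h) :
    FormGe (Tc φ ψ R ε) (ε * σ / (ε * K + σ)) ∧
    H104.ddU W (fun _ => ε * σ / (ε * K + σ)) 0 (fun _ => 1) (fun _ => 1) ≤
      (ε * σ / (ε * K + σ)) * Fintype.card V - (ε * σ / (ε * K + σ)) ^ 2 *
        H416.m2 (fun h => W h * Real.exp (-(1 / 2) * qf (Tc φ ψ R ε) (rl h))) (fun _ => 1) := by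
  have hε := H.hε
  have hσ := H.hσ
  have hT : FormGe (Tc φ ψ R ε) (ε * σ / (ε * K + σ)) :=
    ⟨by positivity, H.Tc_low hK hS, H.Tc_sym⟩
  refine ⟨hT, ?_⟩
  rw [ddU_one hev]
  have h := hW.var_le hT (fun _ => 1)
  have h2 : 0 ≤ (ε * σ / (ε * K + σ)) ^ 2 := sq_nonneg _
  nlinarith

end Vale.Agent.P159.TM.H339
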