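import Vale.Agent.P159.TM.H339.Kap

/-!
Row BAD (= EXC), abstract part: increments of the coarse Gaussian vector under the joint law of
heights and coarse field.
-/

open MeasureTheory Filter Topology

namespace Vale.Agent.P159.TM.H339

open Vale.Agent.P159.TM

variable {V C : Type} [Fintype V] [Fintype C]
variable {φ : (C → ℝ) →ₗ[ℝ] (V → ℝ)} {ψ : (V → ℝ) →ₗ[ℝ] (C → ℝ)}
  {R : (C → ℝ) →ₗ[ℝ] (C → ℝ)} {ε σ : ℝ} {W : (V → ℤ) → ℝ} {B K : ℝ}

/-- summability with a linear tilt of the heights -/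
lemma summable_Ze_tilt (hW0 : ∀ h, 0 ≤ W h) (hWB : ∀ h, W h ≤ B) (hε : 0 < ε) (f β : V → ℝ) :
    Summable fun h : V → ℤ => W h * Real.exp (-(ε / 2) * ns (rl h - f)) *
      Real.exp (β ⬝ᵥ rl h) := by
  have hB : 0 ≤ B := (hW0 0).trans (hWB 0)
  have hSm := ((summable_gV (c := ε / 4) (by positivity) f).mul_left
    (Real.exp ((1 / ε) * ns β + β ⬝ᵥ f))).mul_left B
  refine Summable.of_nonneg_of_le (fun h => mul_nonneg (mul_nonneg (hW0 h) (Real.exp_nonneg _))
    (Real.exp_nonneg _)) (fun h => ?_) hSm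
  rw [mul_assoc, ← Real.exp_add, ← Real.exp_add]
  refine mul_le_mul (hWB h) (Real.exp_le_exp.2 ?_) (Real.exp_nonneg _) hB
  have h2 := lin_quad hε β (rl h - f)
  have h3 : β ⬝ᵥ (rl h - f) = β ⬝ᵥ rl h - β ⬝ᵥ f := dotProduct_sub _ _ _
  nlinarith

/-- heights tilted by `β`, coarse vector integrated out -/
lemma CC.int_tilt (H : CC φ ψ R ε σ) (hW : Good W B) {c : ℝ} (hT : FormGe (Tc φ ψ R ε) c)
    (β : V → ℝ) :
    Integrable (fun G : C → ℝ => Real.exp (-(σ / 2) * ns G) *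
      ∑' h : V → ℤ, W h * Real.exp (-(ε / 2) * ns (rl h - φ G)) * Real.exp (β ⬝ᵥ rl h)) ∧
    ∫ G : C → ℝ, Real.exp (-(σ / 2) * ns G) *
      ∑' h : V → ℤ, W h * Real.exp (-(ε / 2) * ns (rl h - φ G)) * Real.exp (β ⬝ᵥ rl h) =
      NC φ ψ ε σ * ∑' h : V → ℤ, W h * Real.exp (-(1 / 2) * qf (Tc φ ψ R ε) (rl h)) *
        Real.exp (β ⬝ᵥ rl h) := by
  have hε := H.hε
  set F : (V → ℤ) → (C → ℝ) → ℝ := fun h G => (W h * Real.exp (β ⬝ᵥ rl h)) *
    (Real.exp (-(σ / 2) * ns G) * Real.exp (-(ε / 2) * ns (rl h - φ G))) with hF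
  have hg := fun h : V → ℤ => H.gauss 0 (rl h)
  simp only [zero_dotProduct, Real.exp_zero, mul_one, mul_zero, add_zero] at hg
  have hFi : ∀ h, Integrable (F h) := fun h => (hg h).1.const_mul _
  have hFn : ∀ h g, 0 ≤ F h g := fun h g =>
    mul_nonneg (mul_nonneg (hW.nonneg h) (Real.exp_nonneg _)) (by positivity)
  have hval : ∀ h, ∫ g, F h g = NC φ ψ ε σ * (W h * Real.exp (-(1 / 2) *
      qf (Tc φ ψ R ε) (rl h)) * Real.exp (β ⬝ᵥ rl h)) := by
    intro h
    rw [hF]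
    simp only
    rw [integral_const_mul, (hg h).2]
    ring
  have hsm : Summable fun h : V → ℤ => W h * Real.exp (-(1 / 2) *
      qf (Tc φ ψ R ε) (rl h)) * Real.exp (β ⬝ᵥ rl h) := (hW.wt hT).summ β
  have hsum' : Summable fun h => ∫ g, F h g := by
    simp only [hval]
    exact hsm.mul_left _
  have hsum : Summable fun h => ∫ g, ‖F h g‖ := by
    refine hsum'.congr fun h => ?_
    exact integral_congr_ae (ae_of_all _ fun g => by
      simp only [Real.norm_eq_abs, abs_of_nonneg (hFn h g)])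
  have hrw : ∀ h G, F h G = Real.exp (-(σ / 2) * ns G) *
      (W h * Real.exp (-(ε / 2) * ns (rl h - φ G)) * Real.exp (β ⬝ᵥ rl h)) := by
    intro h G
    rw [hF]
    simp only
    ring
  have hts : ∀ g, ∑' h, F h g = Real.exp (-(σ / 2) * ns g) *
      ∑' h : V → ℤ, W h * Real.exp (-(ε / 2) * ns (rl h - φ g)) * Real.exp (β ⬝ᵥ rl h) := by
    intro g
    simp only [hrw]
    rw [tsum_mul_left]
  have h1 := hasSum_integral_of_summable_integral_norm hFi hsum
  have h2 : ∫ g, ∑' h, F h g = ∑' h, ∫ g, F h g := h1.tsum_eq.symm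
  constructor
  · have hFm : ∀ h, Measurable (F h) := fun h => by
      have c1 : Continuous fun g : C → ℝ => ns g := cont_ns
      have c2 : Continuous fun g : C → ℝ => ns (rl h - φ g) :=
        cont_ns.comp (continuous_const.sub (LinearMap.continuous_of_finiteDimensional φ))
      exact (continuous_const.mul ((Real.continuous_exp.comp (continuous_const.mul c1)).mul
        (Real.continuous_exp.comp (continuous_const.mul c2)))).measurable
    have hp : ∀ g, Summable fun h => F h g := by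
      intro g
      simp only [hrw]
      exact (summable_Ze_tilt hW.nonneg hW.le hε (φ g) β).mul_left _
    have h3 : Integrable (fun g => ∑' h, F h g) :=
      integrable_tsum_nn hFm hFn hFi hsum' hp
    exact h3.congr (ae_of_all _ hts)
  · simp only [hts] at h2
    rw [h2]
    simp only [hval]
    rw [tsum_mul_left]

/-- tilt by a linear function of `h - φ G` -/
lemma CC.int_tilt2 (H : CC φ ψ R ε σ) (hK : 0 < K) (hS : ∀ G, ns (φ G) ≤ K * ns G)
    (hW : Good W B) {c : ℝ} (hT : FormGe (Tc φ ψ R ε) c) (α : V → ℝ) :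
    Integrable (fun G : C → ℝ => Real.exp (-(σ / 2) * ns G) *
      ∑' h : V → ℤ, W h * Real.exp (-(ε / 2) * ns (rl h - φ G)) *
        Real.exp (α ⬝ᵥ (rl h - φ G))) ∧
    ∫ G : C → ℝ, Real.exp (-(σ / 2) * ns G) *
      ∑' h : V → ℤ, W h * Real.exp (-(ε / 2) * ns (rl h - φ G)) *
        Real.exp (α ⬝ᵥ (rl h - φ G)) ≤
      Real.exp (ns α / (2 * ε)) * (NC φ ψ ε σ * ZF W (Tc φ ψ R ε) 0) := by
  have hε := H.hε
  have e : ∀ G : C → ℝ, Real.exp (-(σ / 2) * ns G) *
      ∑' h : V → ℤ, W h * Real.exp (-(ε / 2) * ns (rl h - φ G)) *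
        Real.exp (α ⬝ᵥ (rl h - φ G)) =
      Real.exp (ns α / (2 * ε)) * (Real.exp (-(σ / 2) * ns G) *
        Ze W ε ((1 / ε) • α + φ G)) := by
    intro G
    rw [mul_left_comm]
    congr 1
    rw [Ze, ← tsum_mul_left]
    refine tsum_congr fun h => ?_
    rw [mul_assoc, mul_left_comm (Real.exp (ns α / (2 * ε))), ← Real.exp_add, ← Real.exp_add]
    congr 2
    set x : V → ℝ := rl h - φ G with hx
    have h1 : rl h - ((1 / ε) • α + φ G) = x - (1 / ε) • α := by rw [hx]; abel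
    rw [h1]
    have h2 : ns (x - (1 / ε) • α) = ns x - (2 / ε) * (α ⬝ᵥ x) + (1 / ε) ^ 2 * ns α := by
      simp only [ns_eq, sub_dotProduct, dotProduct_sub, smul_dotProduct, dotProduct_smul,
        smul_eq_mul]
      rw [dotProduct_comm x α]; ring
    rw [h2]
    field_simp
    ring
  simp only [e]
  have h0 := H.conv0 hK hS hW.nonneg hW.le ((1 / ε) • α)
  refine ⟨h0.1.const_mul _, ?_⟩
  rw [integral_const_mul, h0.2]
  refine mul_le_mul_of_nonneg_left ?_ (Real.exp_nonneg _)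
  exact mul_le_mul_of_nonneg_left (hW.ZF_le_zero hT _) H.NC_pos.le

lemma one_le_exp_pair {x s τ : ℝ} (hτ : 0 ≤ τ) (h : s ≤ |x|) :
    1 ≤ Real.exp (-(τ * s)) * (Real.exp (τ * x) + Real.exp (-(τ * x))) := by
  rw [mul_add, ← Real.exp_add, ← Real.exp_add]
  rcases le_abs.1 h with h1 | h1
  · have : 1 ≤ Real.exp (-(τ * s) + τ * x) := Real.one_le_exp (by nlinarith)
    linarith [Real.exp_pos (-(τ * s) + -(τ * x))]
  · have : 1 ≤ Real.exp (-(τ * s) + -(τ * x)) := Real.one_le_exp (by nlinarith)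
    linarith [Real.exp_pos (-(τ * s) + τ * x)]

/-- **increment bound for one pair of coarse sites** -/
theorem CC.pair_bad (H : CC φ ψ R ε σ) (hK : 0 < K) (hS : ∀ G, ns (φ G) ≤ K * ns G)
    (hW : Good W B) {c : ℝ} (hT : FormGe (Tc φ ψ R ε) c) (u v : C) (α α' : V → ℝ)
    (hα : ∀ G, α ⬝ᵥ φ G = G u) (hα' : ∀ G, α' ⬝ᵥ φ G = G v) {a E τ τ' s : ℝ}
    (ha : ns α ≤ a) (ha' : ns α' ≤ a) (hτ : 0 ≤ τ) (hτ' : 0 ≤ τ')
    (hE : ∑' h : V → ℤ, W h * Real.exp (-(1 / 2) * qf (Tc φ ψ R ε) (rl h)) *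
      Real.exp ((τ' • (α - α')) ⬝ᵥ rl h) ≤ E * ZF W (Tc φ ψ R ε) 0)
    (hE' : ∑' h : V → ℤ, W h * Real.exp (-(1 / 2) * qf (Tc φ ψ R ε) (rl h)) *
      Real.exp ((-(τ' • (α - α'))) ⬝ᵥ rl h) ≤ E * ZF W (Tc φ ψ R ε) 0) :
    ∫ G in {G : C → ℝ | 3 * s ≤ |G u - G v|}, Real.exp (-(σ / 2) * ns G) * Ze W ε (φ G) ≤
      (4 * Real.exp (τ ^ 2 * a / (2 * ε) - τ * s) + 2 * E * Real.exp (-(τ' * s))) *
        ∫ G : C → ℝ, Real.exp (-(σ / 2) * ns G) * Ze W ε (φ G) := by
  have hε := H.hε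
  have hbase := H.conv0 hK hS hW.nonneg hW.le 0
  simp only [zero_add] at hbase
  have hN := H.NC_pos
  have hZ := hW.ZF_pos hT 0
  -- the six comparison functions
  set P : (V → ℝ) → (C → ℝ) → ℝ := fun β G => Real.exp (-(σ / 2) * ns G) *
      ∑' h : V → ℤ, W h * Real.exp (-(ε / 2) * ns (rl h - φ G)) *
        Real.exp (β ⬝ᵥ (rl h - φ G)) with hP
  set X : (V → ℝ) → (C → ℝ) → ℝ := fun β G => Real.exp (-(σ / 2) * ns G) *
      ∑' h : V → ℤ, W h * Real.exp (-(ε / 2) * ns (rl h - φ G)) * Real.exp (β ⬝ᵥ rl h) with hX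
  have iP : ∀ β, Integrable (P β) := fun β => (H.int_tilt2 hK hS hW hT β).1
  have iX : ∀ β, Integrable (X β) := fun β => (H.int_tilt hW hT β).1
  have P0 : ∀ β G, 0 ≤ P β G := fun β G => mul_nonneg (Real.exp_nonneg _)
    (tsum_nonneg fun h => mul_nonneg (mul_nonneg (hW.nonneg h) (Real.exp_nonneg _))
      (Real.exp_nonneg _))
  have X0 : ∀ β G, 0 ≤ X β G := fun β G => mul_nonneg (Real.exp_nonneg _)
    (tsum_nonneg fun h => mul_nonneg (mul_nonneg (hW.nonneg h) (Real.exp_nonneg _))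
      (Real.exp_nonneg _))
  have vP : ∀ β, ns β ≤ τ ^ 2 * a → ∫ G, P β G ≤ Real.exp (τ ^ 2 * a / (2 * ε)) *
      (NC φ ψ ε σ * ZF W (Tc φ ψ R ε) 0) := by
    intro β hβ
    refine (H.int_tilt2 hK hS hW hT β).2.trans ?_
    refine mul_le_mul_of_nonneg_right (Real.exp_le_exp.2 ?_) (by positivity)
    exact div_le_div_of_nonneg_right hβ (by positivity)
  have vX : ∀ β, ∑' h : V → ℤ, W h * Real.exp (-(1 / 2) * qf (Tc φ ψ R ε) (rl h)) *
      Real.exp (β ⬝ᵥ rl h) ≤ E * ZF W (Tc φ ψ R ε) 0 →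
      ∫ G, X β G ≤ E * (NC φ ψ ε σ * ZF W (Tc φ ψ R ε) 0) := by
    intro β hβ
    rw [(H.int_tilt hW hT β).2]
    have := mul_le_mul_of_nonneg_left hβ hN.le
    linarith
  set S : (C → ℝ) → ℝ := fun G =>
    Real.exp (-(τ * s)) * (P (τ • α) G + P (-(τ • α)) G) +
    Real.exp (-(τ * s)) * (P (τ • α') G + P (-(τ • α')) G) +
    Real.exp (-(τ' * s)) * (X (τ' • (α - α')) G + X (-(τ' • (α - α'))) G) with hSdef
  have iS : Integrable S := by
    refine Integrable.add (Integrable.add ?_ ?_) ?_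
    · exact ((iP _).add (iP _)).const_mul _
    · exact ((iP _).add (iP _)).const_mul _
    · exact ((iX _).add (iX _)).const_mul _
  have S0 : ∀ G, 0 ≤ S G := fun G => by
    have e1 := Real.exp_pos (-(τ * s))
    have e2 := Real.exp_pos (-(τ' * s))
    have := P0 (τ • α) G
    have := P0 (-(τ • α)) G
    have := P0 (τ • α') G
    have := P0 (-(τ • α')) G
    have := X0 (τ' • (α - α')) G
    have := X0 (-(τ' • (α - α'))) G
    simp only [hSdef]
    positivity
  have hpt : ∀ G : C → ℝ, 3 * s ≤ |G u - G v| →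
      Real.exp (-(σ / 2) * ns G) * Ze W ε (φ G) ≤ S G := by
    intro G hG
    have hsP : ∀ β, Summable fun h : V → ℤ => W h * Real.exp (-(ε / 2) * ns (rl h - φ G)) *
        Real.exp (β ⬝ᵥ (rl h - φ G)) := by
      intro β
      have h1 := (summable_Ze_tilt hW.nonneg hW.le hε (φ G) β).mul_left
        (Real.exp (-(β ⬝ᵥ φ G)))
      refine h1.congr fun h => ?_
      have e1 : Real.exp (β ⬝ᵥ (rl h - φ G)) =
          Real.exp (-(β ⬝ᵥ φ G)) * Real.exp (β ⬝ᵥ rl h) := by
        rw [dotProduct_sub, ← Real.exp_add]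
        congr 1
        ring
      rw [e1]
      ring
    have hsX : ∀ β, Summable fun h : V → ℤ => W h * Real.exp (-(ε / 2) * ns (rl h - φ G)) *
        Real.exp (β ⬝ᵥ rl h) := fun β => summable_Ze_tilt hW.nonneg hW.le hε (φ G) β
    set br : (V → ℤ) → ℝ := fun h =>
        Real.exp (-(τ * s)) * (Real.exp ((τ • α) ⬝ᵥ (rl h - φ G)) +
            Real.exp ((-(τ • α)) ⬝ᵥ (rl h - φ G))) +
          Real.exp (-(τ * s)) * (Real.exp ((τ • α') ⬝ᵥ (rl h - φ G)) +
            Real.exp ((-(τ • α')) ⬝ᵥ (rl h - φ G))) +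
          Real.exp (-(τ' * s)) * (Real.exp ((τ' • (α - α')) ⬝ᵥ rl h) +
            Real.exp ((-(τ' • (α - α'))) ⬝ᵥ rl h)) with hbr
    have q1 := ((hsP (τ • α)).hasSum.add (hsP (-(τ • α))).hasSum).mul_left
      (Real.exp (-(τ * s)))
    have q2 := ((hsP (τ • α')).hasSum.add (hsP (-(τ • α'))).hasSum).mul_left
      (Real.exp (-(τ * s)))
    have q3 := ((hsX (τ' • (α - α'))).hasSum.add (hsX (-(τ' • (α - α')))).hasSum).mul_left
      (Real.exp (-(τ' * s)))
    have q4 := (q1.add q2).add q3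
    have hsum : Summable fun h : V → ℤ =>
        (W h * Real.exp (-(ε / 2) * ns (rl h - φ G))) * br h := by
      refine q4.summable.congr fun h => ?_
      simp only [hbr]
      ring
    have q5 : ∑' h : V → ℤ, (W h * Real.exp (-(ε / 2) * ns (rl h - φ G))) * br h = _ :=
      (tsum_congr fun h => by simp only [hbr]; ring).trans q4.tsum_eq
    have hS1 : S G = Real.exp (-(σ / 2) * ns G) * ∑' h : V → ℤ,
        (W h * Real.exp (-(ε / 2) * ns (rl h - φ G))) * br h := by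
      rw [q5]
      simp only [hSdef, hP, hX]
      ring
    rw [hS1, Ze]
    refine mul_le_mul_of_nonneg_left ?_ (Real.exp_nonneg _)
    refine Summable.tsum_le_tsum (fun h => ?_) (summable_Ze hW.nonneg hW.le hε (φ G)) hsum
    have h1 : 1 ≤ br h := by
      set Y := α ⬝ᵥ (rl h - φ G) with hY
      set Y' := α' ⬝ᵥ (rl h - φ G) with hY'
      set Z := (α - α') ⬝ᵥ rl h with hZ'
      have hid : G u - G v = -Y + Y' + Z := by
        rw [hY, hY', hZ', dotProduct_sub, dotProduct_sub, sub_dotProduct, hα, hα']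
        ring
      have e1 : (τ • α) ⬝ᵥ (rl h - φ G) = τ * Y := by
        rw [smul_dotProduct, smul_eq_mul]
      have e2 : (-(τ • α)) ⬝ᵥ (rl h - φ G) = -(τ * Y) := by
        rw [neg_dotProduct, e1]
      have e3 : (τ • α') ⬝ᵥ (rl h - φ G) = τ * Y' := by
        rw [smul_dotProduct, smul_eq_mul]
      have e4 : (-(τ • α')) ⬝ᵥ (rl h - φ G) = -(τ * Y') := by
        rw [neg_dotProduct, e3]
      have e5 : (τ' • (α - α')) ⬝ᵥ rl h = τ' * Z := by
        rw [smul_dotProduct, smul_eq_mul]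
      have e6 : (-(τ' • (α - α'))) ⬝ᵥ rl h = -(τ' * Z) := by
        rw [neg_dotProduct, e5]
      have hbe : br h = Real.exp (-(τ * s)) * (Real.exp (τ * Y) + Real.exp (-(τ * Y))) +
          Real.exp (-(τ * s)) * (Real.exp (τ * Y') + Real.exp (-(τ * Y'))) +
          Real.exp (-(τ' * s)) * (Real.exp (τ' * Z) + Real.exp (-(τ' * Z))) := by
        simp only [hbr]
        rw [e1, e2, e3, e4, e5, e6]
      rw [hbe]
      have p1 : 0 < Real.exp (-(τ * s)) * (Real.exp (τ * Y) + Real.exp (-(τ * Y))) := by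
        positivity
      have p2 : 0 < Real.exp (-(τ * s)) * (Real.exp (τ * Y') + Real.exp (-(τ * Y'))) := by
        positivity
      have p3 : 0 < Real.exp (-(τ' * s)) * (Real.exp (τ' * Z) + Real.exp (-(τ' * Z))) := by
        positivity
      by_cases c1 : s ≤ |Y|
      · linarith [one_le_exp_pair hτ c1]
      by_cases c2 : s ≤ |Y'|
      · linarith [one_le_exp_pair hτ c2]
      by_cases c3 : s ≤ |Z|
      · linarith [one_le_exp_pair hτ' c3]
      exfalso
      rw [not_le] at c1 c2 c3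
      rw [hid] at hG
      have t1 : |-Y + Y' + Z| ≤ |Y| + |Y'| + |Z| := by
        refine (abs_add_le _ _).trans ?_
        have := abs_add_le (-Y) Y'
        rw [abs_neg] at this
        linarith
      linarith
    have h2 : 0 ≤ W h * Real.exp (-(ε / 2) * ns (rl h - φ G)) :=
      mul_nonneg (hW.nonneg h) (Real.exp_nonneg _)
    nlinarith
  have hset : MeasurableSet {G : C → ℝ | 3 * s ≤ |G u - G v|} := by
    have : Measurable fun G : C → ℝ => |G u - G v| :=
      ((measurable_pi_apply u).sub (measurable_pi_apply v)).abs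
    exact measurableSet_le measurable_const this
  have hstep : ∫ G in {G : C → ℝ | 3 * s ≤ |G u - G v|},
      Real.exp (-(σ / 2) * ns G) * Ze W ε (φ G) ≤ ∫ G, S G := by
    calc _ ≤ ∫ G in {G : C → ℝ | 3 * s ≤ |G u - G v|}, S G :=
          setIntegral_mono_on hbase.1.integrableOn iS.integrableOn hset fun G hG => hpt G hG
      _ ≤ ∫ G, S G := setIntegral_le_integral iS (ae_of_all _ S0)
  refine hstep.trans ?_
  have hSint : ∫ G, S G =
      Real.exp (-(τ * s)) * ((∫ G, P (τ • α) G) + ∫ G, P (-(τ • α)) G) +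
      Real.exp (-(τ * s)) * ((∫ G, P (τ • α') G) + ∫ G, P (-(τ • α')) G) +
      Real.exp (-(τ' * s)) * ((∫ G, X (τ' • (α - α')) G) + ∫ G, X (-(τ' • (α - α'))) G) := by
    simp only [hSdef]
    rw [integral_add, integral_add, integral_const_mul, integral_const_mul, integral_const_mul,
      integral_add (iP _) (iP _), integral_add (iP _) (iP _), integral_add (iX _) (iX _)]
    · exact ((iP _).add (iP _)).const_mul _
    · exact ((iP _).add (iP _)).const_mul _
    · exact (((iP _).add (iP _)).const_mul _).add (((iP _).add (iP _)).const_mul _)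
    · exact ((iX _).add (iX _)).const_mul _
  rw [hSint, hbase.2]
  have n1 : ns (τ • α) ≤ τ ^ 2 * a := by
    have : ns (τ • α) = τ ^ 2 * ns α := by
      simp only [ns, Pi.smul_apply, smul_eq_mul, mul_pow, Finset.mul_sum]
    rw [this]
    exact mul_le_mul_of_nonneg_left ha (sq_nonneg _)
  have n2 : ns (τ • α') ≤ τ ^ 2 * a := by
    have : ns (τ • α') = τ ^ 2 * ns α' := by
      simp only [ns, Pi.smul_apply, smul_eq_mul, mul_pow, Finset.mul_sum]
    rw [this]
    exact mul_le_mul_of_nonneg_left ha' (sq_nonneg _)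
  have nneg : ∀ β : V → ℝ, ns (-β) = ns β := fun β => by simp [ns]
  have b1 := vP (τ • α) n1
  have b2 := vP (-(τ • α)) (by rw [nneg]; exact n1)
  have b3 := vP (τ • α') n2
  have b4 := vP (-(τ • α')) (by rw [nneg]; exact n2)
  have b5 := vX _ hE
  have b6 := vX _ hE'
  set NZ := NC φ ψ ε σ * ZF W (Tc φ ψ R ε) 0 with hNZ
  have e1 := Real.exp_pos (-(τ * s))
  have e2 := Real.exp_pos (-(τ' * s))
  have e3 : Real.exp (τ ^ 2 * a / (2 * ε) - τ * s) =
      Real.exp (-(τ * s)) * Real.exp (τ ^ 2 * a / (2 * ε)) := by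
    rw [← Real.exp_add]; congr 1; ring
  rw [e3]
  have r1 := mul_le_mul_of_nonneg_left (add_le_add b1 b2) e1.le
  have r2 := mul_le_mul_of_nonneg_left (add_le_add b3 b4) e1.le
  have r3 := mul_le_mul_of_nonneg_left (add_le_add b5 b6) e2.le
  linarith

end Vale.Agent.P159.TM.H339
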