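import Vale.Agent.P159.TM.H339.BadAbs
import Vale.Agent.P159.TM.H339.GoodT
import Vale.Agent.P159.TM.H339.C1
import Vale.Agent.P159.TM.H365.Phi3
import Vale.Agent.P159.TM.H365.Flow
import Vale.Agent.P159.TM.H845.Meas
import Vale.Agent.P159.TM.H870.Tor

/-!
Row BAD (= EXC), torus instance: the coarse field of 365 is Lipschitz with overwhelming
probability under the coarse density of 104 / 845.
-/

open MeasureTheory Filter Topology

set_option linter.unusedSectionVars false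

namespace Vale.Agent.P159.TM.H339

open Vale.Agent.P159.TM
open Vale.Agent.P159.H353 (wI wI_nonneg wI_anti wI_zero_pos)
open Vale.Agent.P159.TM.SpecC (Tor wT ms LipT QU)
open Vale.Agent.P159.TM.H459 (tS tT)
open Vale.Agent.P159.TM.H365 (AA AAL plat)

section

variable {N M l r : ℕ} [NeZero N] [NeZero M]

theorem wT_eq_Wg (b : ℝ) (N : ℕ) [NeZero N] : wT b N = Wg (tS (N := N)) tT b := H870.wT_eq b N

/-- the torus weight is good -/
theorem good_T {b : ℝ} (hb : 0 ≤ b) :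
    Good (wT b N) (wI b 0 ^ Fintype.card (Tor N × Bool)) := by
  rw [wT_eq_Wg]
  exact good_graph _ _ hb

/-- the norm bound of the coarse field -/
theorem hS_T (hN : N = M * l) (hr : 2 * r < l) (G : Tor M → ℝ) :
    ns (AAL N l r G) ≤ (l : ℝ) ^ 2 * ns G := H365.sq_le hN hr G

theorem one_T : AAL N l r (fun _ : Tor M => (1 : ℝ)) = fun _ => 1 := by
  funext x
  exact H365.AA_const 1 x

theorem tr_one_T (hN : N = M * l) (hr : 2 * r < l) :
    tr (AAL N (n := M) l r) (fun _ => 1) = fun _ => (l : ℝ) ^ 2 := by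
  funext c
  show AA l r (Pi.single c 1) ⬝ᵥ (fun _ : Tor N => (1 : ℝ)) = (l : ℝ) ^ 2
  have h := H365.sum_AA (N := N) hN hr (Pi.single c (1 : ℝ))
  rw [Finset.sum_pi_single' c 1 Finset.univ, if_pos (Finset.mem_univ c), mul_one] at h
  simpa [dotProduct] using h

/-- average over a plateau -/
noncomputable def av (N l r : ℕ) [NeZero N] (u : Tor M) : Tor N → ℝ := fun x =>
  if x ∈ plat N l r u then 1 / ((2 * r + 1 : ℕ) : ℝ) ^ 2 else 0

lemma av_dot (u : Tor M) (f : Tor N → ℝ) :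
    av N l r u ⬝ᵥ f = (∑ x ∈ plat N l r u, f x) / ((2 * r + 1 : ℕ) : ℝ) ^ 2 := by
  unfold dotProduct av
  simp only [ite_mul, zero_mul]
  rw [← Finset.sum_filter, Finset.filter_mem_eq_inter, Finset.univ_inter, Finset.sum_div]
  exact Finset.sum_congr rfl fun x _ => by ring

lemma av_AA (hN : N = M * l) (hr : 2 * r < l) (u : Tor M) (G : Tor M → ℝ) :
    av N l r u ⬝ᵥ AAL N l r G = G u := by
  rw [av_dot]
  have h := H365.avg_plat_AA hN hr G u
  have h0 : ((2 * r + 1 : ℕ) : ℝ) ≠ 0 := by positivity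
  rw [H365.AAL_apply, h]
  field_simp

lemma av_ns (hN : N = M * l) (hr : 2 * r < l) (u : Tor M) :
    ns (av N l r u) = 1 / ((2 * r + 1 : ℕ) : ℝ) ^ 2 := by
  have h0 : ((2 * r + 1 : ℕ) : ℝ) ≠ 0 := by positivity
  rw [ns_eq, av_dot]
  have h1 : ∑ x ∈ plat N l r u, av N l r u x =
      ∑ _x ∈ plat N l r u, 1 / ((2 * r + 1 : ℕ) : ℝ) ^ 2 :=
    Finset.sum_congr rfl fun x hx => by unfold av; rw [if_pos hx]
  rw [h1, Finset.sum_const, H365.card_plat hN hr, nsmul_eq_mul]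
  push_cast at h0 ⊢
  field_simp

lemma cosh_sub_one_le {x : ℝ} (hx : |x| ≤ 1) : Real.cosh x - 1 ≤ x ^ 2 := by
  have h1 := Real.abs_exp_sub_one_sub_id_le hx
  have h2 := Real.abs_exp_sub_one_sub_id_le (x := -x) (by rwa [abs_neg])
  rw [abs_le] at h1 h2
  rw [Real.cosh_eq]
  nlinarith [h1.2, h2.2]

/-- a flow gives the exponential moment under the mass form -/
lemma flow_bound {b bb : ℝ} (hb : 0 ≤ b) (hbb : b ≤ bb)
    {A : (Tor N → ℝ) →ₗ[ℝ] (Tor N → ℝ)} {c : ℝ} (hA : FormGe A c) (d : Bool)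
    (θ : Tor N → ℝ) {q : ℝ} (hq : ∑ y, θ y ^ 2 ≤ q) {τ : ℝ} (hτ : ∀ y, |τ * θ y| ≤ 1)
    (β : Tor N → ℝ)
    (hβ : ∀ h : Tor N → ℝ, β ⬝ᵥ h = τ * ∑ y, θ y * (h (y + H459.dir N d) - h y)) :
    ∑' h : Tor N → ℤ, wT b N h * Real.exp (-(1 / 2) * qf A (rl h)) * Real.exp (β ⬝ᵥ rl h) ≤
      Real.exp (bb * (τ ^ 2 * q)) * ZF (wT b N) A 0 := by
  classical
  set cc : Tor N × Bool → ℝ := fun e => if e.2 = d then τ * θ e.1 else 0 with hcc
  have hsum : ∀ F : Tor N × Bool → ℝ, (∀ e, e.2 ≠ d → F e = 0) →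
      ∑ e, F e = ∑ y, F (y, d) := by
    intro F hF
    rw [Fintype.sum_prod_type]
    refine Finset.sum_congr rfl fun y _ => ?_
    rw [Finset.sum_eq_single d]
    · intro x _ hx
      exact hF (y, x) hx
    · intro h
      exact absurd (Finset.mem_univ _) h
  have h := bare_form (tS (N := N)) tT hb hA cc β (fun h => by
    rw [hβ, hsum]
    · rw [Finset.mul_sum]
      refine Finset.sum_congr rfl fun y _ => ?_
      simp only [hcc, if_true]
      unfold rl tT tS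
      ring
    · intro e he
      simp only [hcc, if_neg he, zero_mul])
  rw [← wT_eq_Wg] at h
  refine h.trans ?_
  have hZ := (good_T (N := N) hb).ZF_pos hA 0
  refine mul_le_mul_of_nonneg_right (Real.exp_le_exp.2 ?_) hZ.le
  rw [hsum]
  · have h1 : ∀ y, b * (Real.cosh (cc (y, d)) - 1) ≤ bb * (τ ^ 2 * θ y ^ 2) := by
      intro y
      have e1 : cc (y, d) = τ * θ y := by simp only [hcc, if_true]
      rw [e1]
      have h2 := cosh_sub_one_le (hτ y)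
      have h3 : 0 ≤ Real.cosh (τ * θ y) - 1 := by
        have := Real.one_le_cosh (τ * θ y)
        linarith
      calc b * (Real.cosh (τ * θ y) - 1) ≤ bb * (Real.cosh (τ * θ y) - 1) :=
            mul_le_mul_of_nonneg_right hbb h3
        _ ≤ bb * (τ * θ y) ^ 2 := mul_le_mul_of_nonneg_left h2 (hb.trans hbb)
        _ = _ := by ring
    refine (Finset.sum_le_sum fun y _ => h1 y).trans ?_
    rw [← Finset.mul_sum, ← Finset.mul_sum]
    exact mul_le_mul_of_nonneg_left (mul_le_mul_of_nonneg_left hq (sq_nonneg _)) (hb.trans hbb)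
  · intro e he
    simp only [hcc, if_neg he, Real.cosh_zero, sub_self, mul_zero]

variable {R : (Tor M → ℝ) →ₗ[ℝ] (Tor M → ℝ)} {ε σ : ℝ}

/-- the bound of the probability of one large increment -/
noncomputable def p1 (bb ε : ℝ) (l r : ℕ) (τ τ' s : ℝ) : ℝ :=
  4 * Real.exp (τ ^ 2 * (1 / ((2 * r + 1 : ℕ) : ℝ) ^ 2) / (2 * ε) - τ * s) +
    2 * Real.exp (bb * (τ' ^ 2 * (l / ((2 * r + 1 : ℕ) : ℝ)))) * Real.exp (-(τ' * s))

lemma p1_pos {bb ε : ℝ} {l r : ℕ} {τ τ' s : ℝ} : 0 < p1 bb ε l r τ τ' s := by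
  unfold p1
  positivity

/-- one pair of adjacent coarse sites -/
theorem pair_T (hN : N = M * l) (hr : 2 * r < l) {b bb : ℝ} (hb : 0 ≤ b) (hbb : b ≤ bb)
    (H : CC (AAL N l r) (tr (AAL N (n := M) l r)) R ε σ) (d : Bool) (u : Tor M) {τ τ' s : ℝ}
    (hτ : 0 ≤ τ) (hτ' : 0 ≤ τ') (hτr : τ' ≤ ((2 * r + 1 : ℕ) : ℝ)) :
    ∫ G in {G : Tor M → ℝ | 3 * s ≤ |G (u + H459.dir M d) - G u|},
      Real.exp (-(σ / 2) * ns G) * Ze (wT b N) ε (AA l r G) ≤
      p1 bb ε l r τ τ' s *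
        ∫ G : Tor M → ℝ, Real.exp (-(σ / 2) * ns G) * Ze (wT b N) ε (AA l r G) := by
  have hε := H.hε
  have hσ := H.hσ
  have hl : (0 : ℝ) < l := by
    have : 0 < l := by omega
    exact_mod_cast this
  have hK : (0 : ℝ) < (l : ℝ) ^ 2 := by positivity
  have hT : FormGe (Tc (AAL N l r) (tr (AAL N (n := M) l r)) R ε)
      (ε * σ / (ε * (l : ℝ) ^ 2 + σ)) :=
    ⟨by positivity, H.Tc_low hK (hS_T hN hr), H.Tc_sym⟩
  have h0 : (0 : ℝ) < ((2 * r + 1 : ℕ) : ℝ) := by positivity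
  obtain ⟨θ, hθ0, hθ1, -, hθ2, hθ3⟩ : ∃ θ : Tor N → ℝ, (∀ y, 0 ≤ θ y) ∧
      (∀ y, θ y ≤ 1 / ((2 * r + 1 : ℕ) : ℝ)) ∧ ∑ y, θ y = l ∧
      ∑ y, θ y ^ 2 ≤ l / ((2 * r + 1 : ℕ) : ℝ) ∧
      ∀ h : Tor N → ℝ,
        (∑ x ∈ plat N l r (u + H459.dir M d), h x) / ((2 * r + 1 : ℕ) : ℝ) ^ 2 -
          (∑ x ∈ plat N l r u, h x) / ((2 * r + 1 : ℕ) : ℝ) ^ 2 =
          ∑ y, θ y * (h (y + H459.dir N d) - h y) := by
    cases d
    · exact H365.flow2 hN hr u
    · exact H365.flow1 hN hr u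
  have habs : ∀ y, |τ' * θ y| ≤ 1 := by
    intro y
    rw [abs_of_nonneg (mul_nonneg hτ' (hθ0 y))]
    calc τ' * θ y ≤ ((2 * r + 1 : ℕ) : ℝ) * (1 / ((2 * r + 1 : ℕ) : ℝ)) :=
          mul_le_mul hτr (hθ1 y) (hθ0 y) h0.le
      _ = 1 := by field_simp
  have hid : ∀ h : Tor N → ℝ, (av N l r (u + H459.dir M d) - av N l r u) ⬝ᵥ h =
      ∑ y, θ y * (h (y + H459.dir N d) - h y) := by
    intro h
    rw [sub_dotProduct, av_dot, av_dot, hθ3]
  refine H.pair_bad hK (hS_T hN hr) (good_T hb) hT (u + H459.dir M d) u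
    (av N l r (u + H459.dir M d)) (av N l r u) (av_AA hN hr _) (av_AA hN hr _)
    (av_ns hN hr _).le (av_ns hN hr _).le hτ hτ' ?_ ?_
  · refine flow_bound hb hbb hT d θ hθ2 (τ := τ') habs _ fun h => ?_
    rw [smul_dotProduct, smul_eq_mul, hid]
  · have h1 := flow_bound hb hbb hT d θ hθ2 (τ := -τ') (fun y => by
      rw [neg_mul, abs_neg]
      exact habs y) (-(τ' • (av N l r (u + H459.dir M d) - av N l r u))) (fun h => by
        rw [neg_dotProduct, smul_dotProduct, smul_eq_mul, hid]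
        ring)
    rwa [neg_sq] at h1

/-- the set of coarse fields which are not Lipschitz is covered by large increments -/
lemma not_lip_sub (hN : N = M * l) (hr : 2 * r < l) {ℓ s : ℝ} (hs0 : 0 ≤ s)
    (hs : Real.sqrt 2 * (3 * s) ≤ ℓ * ((l : ℝ) - 2 * r)) (G : Tor M → ℝ)
    (hG : ¬ LipT ℓ (AA l r G : Tor N → ℝ)) :
    ∃ e : Tor M × Bool, 3 * s ≤ |G (e.1 + H459.dir M e.2) - G e.1| := by
  by_contra hcon
  push Not at hcon
  apply hG
  intro x y
  have hl := H365.ramp_pos hr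
  refine (H365.AA_lip_tn hN hr (M := 3 * s) (by positivity) G (fun u => ?_) (fun u => ?_)
    x y).trans ?_
  · exact (hcon (u, true)).le
  · exact (hcon (u, false)).le
  · refine mul_le_mul_of_nonneg_right ?_ (H859.tn_nonneg _)
    rw [div_le_iff₀ hl]
    exact hs

/-- finite union bound for nonnegative integrable functions -/
lemma integral_fintype_iUnion_le {α ι : Type*} [MeasurableSpace α] {μ : Measure α} [Fintype ι]
    {F : α → ℝ} (hF0 : ∀ x, 0 ≤ F x) {S : ι → Set α} (hS : ∀ i, MeasurableSet (S i))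
    (hF : Integrable F μ) :
    ∫ x in ⋃ i, S i, F x ∂μ ≤ ∑ i, ∫ x in S i, F x ∂μ := by
  have hU : MeasurableSet (⋃ i, S i) := MeasurableSet.iUnion hS
  rw [← integral_indicator hU]
  have e1 : ∀ i, ∫ x in S i, F x ∂μ = ∫ x, (S i).indicator F x ∂μ := fun i =>
    (integral_indicator (hS i)).symm
  simp only [e1]
  rw [← integral_finsetSum _ (fun i _ => hF.indicator (hS i))]
  refine integral_mono (hF.indicator hU)
    (integrable_finsetSum _ fun i _ => hF.indicator (hS i)) fun x => ?_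
  by_cases hx : x ∈ ⋃ i, S i
  · rw [Set.indicator_of_mem hx]
    obtain ⟨i, hi⟩ := Set.mem_iUnion.1 hx
    calc F x = (S i).indicator F x := (Set.indicator_of_mem hi F).symm
      _ ≤ ∑ i, (S i).indicator F x :=
        Finset.single_le_sum (f := fun j => (S j).indicator F x)
          (fun j _ => Set.indicator_nonneg (fun y _ => hF0 y) x) (Finset.mem_univ i)
  · rw [Set.indicator_of_notMem hx]
    exact Finset.sum_nonneg fun j _ => Set.indicator_nonneg (fun y _ => hF0 y) x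

/-- all pairs -/
theorem bad_Ze (hN : N = M * l) (hr : 2 * r < l) {b bb : ℝ} (hb : 0 ≤ b) (hbb : b ≤ bb)
    (H : CC (AAL N l r) (tr (AAL N (n := M) l r)) R ε σ) {ℓ τ τ' s : ℝ} (hs0 : 0 ≤ s)
    (hs : Real.sqrt 2 * (3 * s) ≤ ℓ * ((l : ℝ) - 2 * r))
    (hτ : 0 ≤ τ) (hτ' : 0 ≤ τ') (hτr : τ' ≤ ((2 * r + 1 : ℕ) : ℝ)) :
    Integrable (fun G : Tor M → ℝ => Real.exp (-(σ / 2) * ns G) * Ze (wT b N) ε (AA l r G)) ∧
    ∫ G in {G : Tor M → ℝ | ¬ LipT ℓ (AA l r G : Tor N → ℝ)},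
      Real.exp (-(σ / 2) * ns G) * Ze (wT b N) ε (AA l r G) ≤
      2 * (M : ℝ) ^ 2 * p1 bb ε l r τ τ' s *
        ∫ G : Tor M → ℝ, Real.exp (-(σ / 2) * ns G) * Ze (wT b N) ε (AA l r G) := by
  have hl : (0 : ℝ) < l := by
    have : 0 < l := by omega
    exact_mod_cast this
  have hK : (0 : ℝ) < (l : ℝ) ^ 2 := by positivity
  have hgood := good_T (N := N) hb
  have hbase := H.conv0 hK (hS_T hN hr) hgood.nonneg hgood.le 0
  simp only [zero_add, H365.AAL_apply] at hbase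
  refine ⟨hbase.1, ?_⟩
  set F : (Tor M → ℝ) → ℝ := fun G =>
    Real.exp (-(σ / 2) * ns G) * Ze (wT b N) ε (AA l r G) with hF
  have hF0 : ∀ G, 0 ≤ F G := fun G => mul_nonneg (Real.exp_nonneg _)
    (tsum_nonneg fun h => mul_nonneg (hgood.nonneg h) (Real.exp_nonneg _))
  have hsub : {G : Tor M → ℝ | ¬ LipT ℓ (AA l r G : Tor N → ℝ)} ⊆
      ⋃ e : Tor M × Bool, {G : Tor M → ℝ | 3 * s ≤ |G (e.1 + H459.dir M e.2) - G e.1|} := by
    intro G hG
    rw [Set.mem_iUnion]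
    exact not_lip_sub hN hr hs0 hs G hG
  have hmeas : ∀ e : Tor M × Bool,
      MeasurableSet {G : Tor M → ℝ | 3 * s ≤ |G (e.1 + H459.dir M e.2) - G e.1|} := by
    intro e
    have : Measurable fun G : Tor M → ℝ => |G (e.1 + H459.dir M e.2) - G e.1| :=
      ((measurable_pi_apply (e.1 + H459.dir M e.2)).sub (measurable_pi_apply e.1)).abs
    exact measurableSet_le measurable_const this
  calc ∫ G in {G : Tor M → ℝ | ¬ LipT ℓ (AA l r G : Tor N → ℝ)}, F G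
      ≤ ∫ G in ⋃ e : Tor M × Bool, {G : Tor M → ℝ | 3 * s ≤
          |G (e.1 + H459.dir M e.2) - G e.1|}, F G :=
        setIntegral_mono_set hbase.1.integrableOn (ae_of_all _ fun G => hF0 G)
          (LE.le.eventuallyLE hsub)
    _ ≤ ∑ e : Tor M × Bool, ∫ G in {G : Tor M → ℝ | 3 * s ≤
          |G (e.1 + H459.dir M e.2) - G e.1|}, F G := by
        exact integral_fintype_iUnion_le hF0 hmeas hbase.1
    _ ≤ ∑ _e : Tor M × Bool, p1 bb ε l r τ τ' s * ∫ G : Tor M → ℝ, F G :=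
        Finset.sum_le_sum fun e _ => pair_T hN hr hb hbb H e.2 e.1 hτ hτ' hτr
    _ = 2 * (M : ℝ) ^ 2 * p1 bb ε l r τ τ' s * ∫ G : Tor M → ℝ, F G := by
        rw [Finset.sum_const, Finset.card_univ, Fintype.card_prod, Fintype.card_prod,
          ZMod.card, Fintype.card_bool, nsmul_eq_mul]
        push_cast
        ring

/-- the coarse density of 104 / 845 against the exact density -/
lemma rho_cmp {b : ℝ} (hb : 0 ≤ b) {ξ s2 : ℝ} (hξ : 0 < ξ) (G : Tor M → ℝ) :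
    (Ze (wT b N) (1 / ξ ^ 2) 0)⁻¹ * Real.exp (-(H871.kap (wT b N) (ms (N := N) ξ) / 4)) *
      (Real.exp (-((1 / s2) / 2) * ns G) * Ze (wT b N) (1 / ξ ^ 2) (AA l r G)) ≤
        H845.rho (wT b N) (ms ξ) (AA (N := N) l r) s2 G ∧
    H845.rho (wT b N) (ms ξ) (AA (N := N) l r) s2 G ≤
      (Ze (wT b N) (1 / ξ ^ 2) 0)⁻¹ * Real.exp (H871.kap (wT b N) (ms (N := N) ξ) / 4) *
      (Real.exp (-((1 / s2) / 2) * ns G) * Ze (wT b N) (1 / ξ ^ 2) (AA l r G)) := by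
  have hm : ∀ x, 0 < ms (N := N) ξ x := fun x => by
    unfold SpecC.ms
    positivity
  have hW := H870.wt_T (N := N) hb
  have hG := H870.gin_T (N := N) hb hm
  have hU := H871.U_sub_Ub hW hm H870.shift_T hG
    (H871.hK_kap hW hm (H870.even_T hb) hG) (AA (N := N) l r G)
  have hZe : ∀ f : Tor N → ℝ, H871.Z (wT b N) (ms ξ) f = Ze (wT b N) (1 / ξ ^ 2) f := fun f =>
    Zr_eq_Ze (wT b N) (1 / ξ ^ 2) f
  have p0 := hW.Z_pos hm 0
  have pf := hW.Z_pos hm (AA (N := N) l r G)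
  rw [hZe] at p0 pf
  have hexp : Real.exp (-H871.U (wT b N) (ms ξ) (AA (N := N) l r G)) =
      (Ze (wT b N) (1 / ξ ^ 2) 0)⁻¹ * Ze (wT b N) (1 / ξ ^ 2) (AA l r G) := by
    unfold H871.U
    rw [neg_neg, hZe, hZe, Real.exp_log (div_pos pf p0)]
    field_simp
  set κ := H871.kap (wT b N) (ms (N := N) ξ) / 4 with hκ
  set u := H871.U (wT b N) (ms ξ) (AA (N := N) l r G) with hu
  set ub := H871.Ub (wT b N) (ms ξ) (AA (N := N) l r G) with hub
  have e1 : ∀ c : ℝ, (Ze (wT b N) (1 / ξ ^ 2) 0)⁻¹ * Real.exp c *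
      (Real.exp (-((1 / s2) / 2) * ns G) * Ze (wT b N) (1 / ξ ^ 2) (AA l r G)) =
      Real.exp (c + -((1 / s2) / 2) * ns G - u) := by
    intro c
    rw [sub_eq_add_neg, Real.exp_add, Real.exp_add, hexp]
    ring
  have e2 : H845.rho (wT b N) (ms ξ) (AA (N := N) l r) s2 G =
      Real.exp (-((1 / s2) / 2) * ns G - ub) := by
    unfold H845.rho ns
    congr 2
    ring
  rw [abs_le] at hU
  rw [e1, e1, e2]
  constructor
  · exact Real.exp_le_exp.2 (by linarith [hU.1, hU.2])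
  · exact Real.exp_le_exp.2 (by linarith [hU.1, hU.2])

/-- **row BAD**: general parameters -/
theorem bad_rho (hN : N = M * l) (hr : 2 * r < l) {b bb : ℝ} (hb : 0 ≤ b) (hbb : b ≤ bb)
    {ξ s2 : ℝ} (hξ : 0 < ξ) (hs2 : 0 < s2) {ℓ τ τ' s : ℝ} (hs0 : 0 ≤ s)
    (hs : Real.sqrt 2 * (3 * s) ≤ ℓ * ((l : ℝ) - 2 * r))
    (hτ : 0 ≤ τ) (hτ' : 0 ≤ τ') (hτr : τ' ≤ ((2 * r + 1 : ℕ) : ℝ)) :
    ∫ G in {G : Tor M → ℝ | ¬ LipT ℓ (AA l r G : Tor N → ℝ)},
      H845.rho (wT b N) (ms ξ) (AA (N := N) l r) s2 G ≤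
      Real.exp (H871.kap (wT b N) (ms (N := N) ξ) / 2) *
        (2 * (M : ℝ) ^ 2 * p1 bb (1 / ξ ^ 2) l r τ τ' s) *
        ∫ G : Tor M → ℝ, H845.rho (wT b N) (ms ξ) (AA (N := N) l r) s2 G := by
  have hm : ∀ x, 0 < ms (N := N) ξ x := fun x => by
    unfold SpecC.ms
    positivity
  have hε : 0 < 1 / ξ ^ 2 := by positivity
  have hσ : 0 < 1 / s2 := by positivity
  obtain ⟨R, H⟩ := exists_CC (AAL N (n := M) l r) hε hσ
  have hB := bad_Ze hN hr hb hbb H hs0 hs hτ hτ' hτr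
  have hgood := good_T (N := N) hb
  have hW := H870.wt_T (N := N) hb
  have hG := H870.gin_T (N := N) hb hm
  have hZ0 : 0 < Ze (wT b N) (1 / ξ ^ 2) 0 := by
    rw [← Zr_eq_Ze]
    exact hW.Z_pos hm 0
  set κ := H871.kap (wT b N) (ms (N := N) ξ) with hκ
  set F : (Tor M → ℝ) → ℝ := fun G =>
    Real.exp (-((1 / s2) / 2) * ns G) * Ze (wT b N) (1 / ξ ^ 2) (AA l r G) with hF
  set ρ : (Tor M → ℝ) → ℝ := fun G => H845.rho (wT b N) (ms ξ) (AA (N := N) l r) s2 G with hρ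
  have hρi : Integrable ρ := H845.rho_int hW hm hG H365.continuous_AA hs2
  have hcmp := fun G : Tor M → ℝ => rho_cmp (N := N) (l := l) (r := r) (s2 := s2) hb hξ G
  have hmeas : MeasurableSet {G : Tor M → ℝ | ¬ LipT ℓ (AA l r G : Tor N → ℝ)} :=
    (H845.lipT_meas (N := N) (L := ℓ) (A := AA l r) H365.continuous_AA).compl
  set z := (Ze (wT b N) (1 / ξ ^ 2) 0)⁻¹ with hz
  have hz0 : 0 < z := inv_pos.2 hZ0
  have s1 : ∫ G in {G : Tor M → ℝ | ¬ LipT ℓ (AA l r G : Tor N → ℝ)}, ρ G ≤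
      z * Real.exp (κ / 4) * ∫ G in {G : Tor M → ℝ | ¬ LipT ℓ (AA l r G : Tor N → ℝ)}, F G := by
    rw [← integral_const_mul]
    exact setIntegral_mono_on hρi.integrableOn (hB.1.const_mul _).integrableOn hmeas
      fun G _ => (hcmp G).2
  have s2' : z * Real.exp (-(κ / 4)) * ∫ G, F G ≤ ∫ G, ρ G := by
    rw [← integral_const_mul]
    exact integral_mono (hB.1.const_mul _) hρi fun G => (hcmp G).1
  have hP : 0 ≤ 2 * (M : ℝ) ^ 2 * p1 bb (1 / ξ ^ 2) l r τ τ' s := by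
    have := p1_pos (bb := bb) (ε := 1 / ξ ^ 2) (l := l) (r := r) (τ := τ) (τ' := τ') (s := s)
    positivity
  calc ∫ G in {G : Tor M → ℝ | ¬ LipT ℓ (AA l r G : Tor N → ℝ)}, ρ G
      ≤ z * Real.exp (κ / 4) * (2 * (M : ℝ) ^ 2 * p1 bb (1 / ξ ^ 2) l r τ τ' s * ∫ G, F G) :=
        s1.trans (mul_le_mul_of_nonneg_left hB.2 (by positivity))
    _ = Real.exp (κ / 2) * (2 * (M : ℝ) ^ 2 * p1 bb (1 / ξ ^ 2) l r τ τ' s) *
          (z * Real.exp (-(κ / 4)) * ∫ G, F G) := by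
        have e : Real.exp (κ / 4) = Real.exp (κ / 2) * Real.exp (-(κ / 4)) := by
          rw [← Real.exp_add]
          congr 1
          ring
        rw [e]
        ring
    _ ≤ Real.exp (κ / 2) * (2 * (M : ℝ) ^ 2 * p1 bb (1 / ξ ^ 2) l r τ τ' s) * ∫ G, ρ G :=
        mul_le_mul_of_nonneg_left s2' (by positivity)

end

end Vale.Agent.P159.TM.H339
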