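import Vale.Agent.P159.TM.H339.Conv2

/-!
Row C1.  Coarse step with a finite Gaussian coarse vector `G : C → ℝ` of precision `σ` and a linear
interpolation `φ` from `C → ℝ` to `V → ℝ` with adjoint `ψ`.
-/

open MeasureTheory Filter Topology

namespace Vale.Agent.P159.TM.H339

variable {V C : Type} [Fintype V] [Fintype C]

/-- the data of a coarse step: `ψ` adjoint of `φ`, `R = (ε ψ φ + σ)⁻¹` -/
structure CC (φ : (C → ℝ) →ₗ[ℝ] (V → ℝ)) (ψ : (V → ℝ) →ₗ[ℝ] (C → ℝ))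
    (R : (C → ℝ) →ₗ[ℝ] (C → ℝ)) (ε σ : ℝ) : Prop where
  hε : 0 < ε
  hσ : 0 < σ
  adj : ∀ G u, (φ G) ⬝ᵥ u = G ⬝ᵥ ψ u
  inv : ∀ G, ε • ψ (φ (R G)) + σ • R G = G

/-- the coarse mass form `ε - ε² φ R ψ` -/
noncomputable def Tc (φ : (C → ℝ) →ₗ[ℝ] (V → ℝ)) (ψ : (V → ℝ) →ₗ[ℝ] (C → ℝ))
    (R : (C → ℝ) →ₗ[ℝ] (C → ℝ)) (ε : ℝ) : (V → ℝ) →ₗ[ℝ] (V → ℝ) :=
  ε • LinearMap.id - (ε ^ 2) • (φ ∘ₗ R ∘ₗ ψ)

section

variable {φ : (C → ℝ) →ₗ[ℝ] (V → ℝ)} {ψ : (V → ℝ) →ₗ[ℝ] (C → ℝ)}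
  {R : (C → ℝ) →ₗ[ℝ] (C → ℝ)} {ε σ : ℝ}

lemma CC.qf_Tc (H : CC φ ψ R ε σ) (u : V → ℝ) :
    qf (Tc φ ψ R ε) u = ε * ns u - ε ^ 2 * (ψ u ⬝ᵥ R (ψ u)) := by
  have h := H.adj (R (ψ u)) u
  simp only [qf, Tc, LinearMap.sub_apply, LinearMap.smul_apply, LinearMap.id_apply,
    LinearMap.comp_apply, dotProduct_sub, dotProduct_smul, smul_eq_mul]
  rw [dotProduct_comm u (φ _), h, dotProduct_comm (R _), ns_eq]

lemma CC.qf_Q (H : CC φ ψ R ε σ) (G : C → ℝ) : qf (ε • (ψ ∘ₗ φ)) G = ε * ns (φ G) := by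
  have h := H.adj G (φ G)
  simp only [qf, LinearMap.smul_apply, LinearMap.comp_apply, dotProduct_smul, smul_eq_mul]
  rw [← h, ns_eq]

lemma CC.cs (H : CC φ ψ R ε σ) : CS (ε • (ψ ∘ₗ φ)) R σ 0 where
  hε := H.hσ
  hq := le_refl _
  sym := by
    intro u w
    simp only [LinearMap.smul_apply, LinearMap.comp_apply, dotProduct_smul, smul_eq_mul]
    rw [← H.adj, ← H.adj, dotProduct_comm]
  inv := fun G => by
    have := H.inv G
    simpa only [LinearMap.smul_apply, LinearMap.comp_apply] using this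
  low := fun u => by
    rw [H.qf_Q, zero_mul]
    exact mul_nonneg H.hε.le (ns_nonneg _)

/-- normalisation -/
noncomputable def NC (φ : (C → ℝ) →ₗ[ℝ] (V → ℝ)) (ψ : (V → ℝ) →ₗ[ℝ] (C → ℝ)) (ε σ : ℝ) : ℝ :=
  NP (ε • (ψ ∘ₗ φ)) σ

lemma CC.NC_pos (H : CC φ ψ R ε σ) : 0 < NC φ ψ ε σ := H.cs.NP_pos

/-- integral of one shifted Gaussian over the coarse vector -/
lemma CC.gauss (H : CC φ ψ R ε σ) (t : C → ℝ) (u : V → ℝ) :
    Integrable (fun G : C → ℝ =>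
      Real.exp (-(σ / 2) * ns G) * Real.exp (-(ε / 2) * ns (u - φ G)) * Real.exp (t ⬝ᵥ G)) ∧
    ∫ G : C → ℝ, Real.exp (-(σ / 2) * ns G) * Real.exp (-(ε / 2) * ns (u - φ G)) *
      Real.exp (t ⬝ᵥ G) =
      NC φ ψ ε σ * Real.exp (-(1 / 2) * qf (Tc φ ψ R ε) u + (1 / 2) * (t ⬝ᵥ R t) +
        ε * (t ⬝ᵥ R (ψ u))) := by
  have h := H.cs.gauss (ε • ψ u + t) 0
  have e : ∀ G : C → ℝ, Real.exp (-(σ / 2) * ns G) * Real.exp (-(ε / 2) * ns (u - φ G)) *
      Real.exp (t ⬝ᵥ G) = Real.exp (-(ε / 2) * ns u) *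
        (Real.exp (-(1 / 2) * qf (ε • (ψ ∘ₗ φ)) G) * Real.exp (-(σ / 2) * ns (0 - G)) *
          Real.exp ((ε • ψ u + t) ⬝ᵥ G)) := by
    intro G
    rw [← Real.exp_add, ← Real.exp_add, ← Real.exp_add, ← Real.exp_add, ← Real.exp_add]
    congr 1
    have h1 : ns (u - φ G) = ns u - 2 * (G ⬝ᵥ ψ u) + ns (φ G) := by
      rw [← H.adj]
      simp only [ns_eq, sub_dotProduct, dotProduct_sub]
      rw [dotProduct_comm u (φ G)]; ring
    have h2 : ns (0 - G) = ns G := by simp [ns]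
    rw [H.qf_Q, h1, h2, add_dotProduct, smul_dotProduct, smul_eq_mul, dotProduct_comm (ψ u)]
    ring
  simp only [e]
  refine ⟨h.1.const_mul _, ?_⟩
  rw [integral_const_mul, h.2, NC]
  have h3 : qf (Tf R σ) (0 : C → ℝ) = 0 := by simp [qf]
  have h4 : (ε • ψ u + t) ⬝ᵥ R (ε • ψ u + t) =
      ε ^ 2 * (ψ u ⬝ᵥ R (ψ u)) + 2 * ε * (t ⬝ᵥ R (ψ u)) + t ⬝ᵥ R t := by
    have hs := H.cs.R_sym (ψ u) t
    simp only [map_add, map_smul, add_dotProduct, dotProduct_add, smul_dotProduct,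
      dotProduct_smul, smul_eq_mul]
    rw [hs]; ring
  rw [h3, h4, H.qf_Tc]
  have h5 : (R : (C → ℝ) →ₗ[ℝ] (C → ℝ)) 0 = 0 := map_zero _
  rw [h5, dotProduct_zero]
  rw [mul_left_comm, ← Real.exp_add]
  congr 2
  ring

/-- Schur: lower bound of the coarse form -/
lemma CC.Tc_low (H : CC φ ψ R ε σ) {K : ℝ} (hK : 0 < K) (hS : ∀ G, ns (φ G) ≤ K * ns G)
    (u : V → ℝ) : (ε * σ / (ε * K + σ)) * ns u ≤ qf (Tc φ ψ R ε) u := by
  have hε := H.hε
  have hσ := H.hσ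
  -- the value at the minimiser
  set a := R (ε • ψ u) with ha
  have h1 : ε • ψ (φ a) + σ • a = ε • ψ u := H.inv _
  have h2 : ε * ns (φ a) + σ * ns a = ε * (a ⬝ᵥ ψ u) := by
    have h3 := congrArg (fun x => a ⬝ᵥ x) h1
    simp only [dotProduct_add, dotProduct_smul, smul_eq_mul] at h3
    rw [← H.adj a (φ a)] at h3
    rw [ns_eq, ns_eq]
    exact h3
  have h3 : ns (u - φ a) = ns u - 2 * (a ⬝ᵥ ψ u) + ns (φ a) := by
    rw [← H.adj]
    simp only [ns_eq, sub_dotProduct, dotProduct_sub]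
    rw [dotProduct_comm u (φ a)]; ring
  have h4 : a ⬝ᵥ ψ u = ε * (ψ u ⬝ᵥ R (ψ u)) := by
    rw [ha, map_smul, smul_dotProduct, smul_eq_mul, dotProduct_comm]
  have h5 : qf (Tc φ ψ R ε) u = ε * ns (u - φ a) + σ * ns a := by
    rw [H.qf_Tc, h3]
    have : ε ^ 2 * (ψ u ⬝ᵥ R (ψ u)) = ε * (a ⬝ᵥ ψ u) := by rw [h4]; ring
    rw [this]
    linarith
  rw [h5]
  have h6 : σ / K * ns (φ a) ≤ σ * ns a := by
    rw [div_mul_eq_mul_div, div_le_iff₀ hK]
    have := mul_le_mul_of_nonneg_left (hS a) hσ.le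
    linarith
  have h7 : (ε * σ / (ε * K + σ)) * ns u ≤ ε * ns (u - φ a) + σ / K * ns (φ a) := by
    have e : ε * σ / (ε * K + σ) = ε * (σ / K) / (ε + σ / K) := by
      field_simp
    rw [e]
    set τ := σ / K with hτ
    have hτ0 : 0 < τ := by positivity
    simp only [ns, Finset.mul_sum]
    rw [← Finset.sum_add_distrib]
    refine Finset.sum_le_sum fun v _ => ?_
    simp only [Pi.sub_apply]
    set x := u v
    set y := φ a v
    have hs : 0 < ε + τ := by positivity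
    rw [div_mul_eq_mul_div, div_le_iff₀ hs]
    nlinarith [sq_nonneg (τ * y - ε * (x - y))]
  linarith

lemma CC.Tc_up (H : CC φ ψ R ε σ) (u : V → ℝ) : qf (Tc φ ψ R ε) u ≤ ε * ns u := by
  have hε := H.hε
  have hσ := H.hσ
  set a := R (ψ u) with ha
  have h1 : ε • ψ (φ a) + σ • a = ψ u := H.inv _
  have h2 : ε * ns (φ a) + σ * ns a = a ⬝ᵥ ψ u := by
    have h3 := congrArg (fun x => a ⬝ᵥ x) h1
    simp only [dotProduct_add, dotProduct_smul, smul_eq_mul] at h3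
    rw [← H.adj a (φ a)] at h3
    rw [ns_eq, ns_eq]
    exact h3
  rw [H.qf_Tc, dotProduct_comm (ψ u), ← ha, ← h2]
  have := ns_nonneg (φ a)
  have := ns_nonneg a
  have : 0 ≤ ε ^ 2 * (ε * ns (φ a) + σ * ns a) := by positivity
  linarith

/-- symmetry of the coarse form -/
lemma CC.Tc_sym (H : CC φ ψ R ε σ) (u w : V → ℝ) :
    u ⬝ᵥ Tc φ ψ R ε w = w ⬝ᵥ Tc φ ψ R ε u := by
  simp only [Tc, LinearMap.sub_apply, LinearMap.smul_apply, LinearMap.id_apply,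
    LinearMap.comp_apply, dotProduct_sub, dotProduct_smul, smul_eq_mul]
  rw [dotProduct_comm u (φ _), dotProduct_comm w (φ _), H.adj, H.adj,
    dotProduct_comm (R _) (ψ u), dotProduct_comm (R _) (ψ w), H.cs.R_sym (ψ u) (ψ w),
    dotProduct_comm u w]

/-- constants are eigenvectors -/
lemma CC.Tc_one (H : CC φ ψ R ε σ) {K : ℝ} (hK : 0 < K) (h1 : φ (fun _ => 1) = fun _ => 1)
    (h2 : ψ (fun _ => 1) = fun _ => K) (c : ℝ) :
    Tc φ ψ R ε (fun _ => c) = fun _ => (ε * σ / (ε * K + σ)) * c := by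
  have hε := H.hε
  have hσ := H.hσ
  have hs : ε * K + σ ≠ 0 := by positivity
  -- `R 1 = 1/(ε K + σ)`
  have hinj : ∀ G G' : C → ℝ, ε • ψ (φ G) + σ • G = ε • ψ (φ G') + σ • G' → G = G' := by
    intro G G' he
    have h3 : ε • ψ (φ (G - G')) + σ • (G - G') = 0 := by
      simp only [map_sub, smul_sub]
      rw [sub_add_sub_comm, he, sub_self]
    have h4 : ε * ns (φ (G - G')) + σ * ns (G - G') = 0 := by
      have h5 := congrArg (fun x => (G - G') ⬝ᵥ x) h3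
      simp only [dotProduct_add, dotProduct_smul, smul_eq_mul, dotProduct_zero] at h5
      rw [← H.adj (G - G') (φ (G - G'))] at h5
      rw [ns_eq, ns_eq]
      exact h5
    have h6 : ns (G - G') = 0 := by
      have a1 := mul_nonneg hε.le (ns_nonneg (φ (G - G')))
      have a2 := mul_nonneg hσ.le (ns_nonneg (G - G'))
      have : σ * ns (G - G') = 0 := by linarith
      rcases mul_eq_zero.1 this with h | h
      · exact absurd h hσ.ne'
      · exact h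
    have h7 : ∀ v, (G - G') v ^ 2 = 0 := fun v =>
      (Finset.sum_eq_zero_iff_of_nonneg fun _ _ => sq_nonneg _).1 h6 v (Finset.mem_univ _)
    funext v
    have := pow_eq_zero_iff (two_ne_zero) |>.1 (h7 v)
    simpa [sub_eq_zero] using this
  have hR : R (fun _ => 1) = fun _ => 1 / (ε * K + σ) := by
    refine hinj _ _ ?_
    rw [H.inv]
    have e1 : (fun _ : C => 1 / (ε * K + σ)) = (1 / (ε * K + σ)) • (fun _ : C => (1 : ℝ)) := by
      funext u; simp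
    rw [e1, map_smul, map_smul, h1, h2]
    funext u
    simp only [Pi.add_apply, Pi.smul_apply, smul_eq_mul]
    field_simp
  have e0 : (fun _ : V => c) = c • (fun _ : V => (1 : ℝ)) := by funext v; simp
  have e2 : (fun _ : C => K) = K • (fun _ : C => (1 : ℝ)) := by funext v; simp
  have e3 : (fun _ : C => 1 / (ε * K + σ)) = (1 / (ε * K + σ)) • (fun _ : C => (1 : ℝ)) := by
    funext u; simp
  rw [e0, map_smul]
  simp only [Tc, LinearMap.sub_apply, LinearMap.smul_apply, LinearMap.id_apply,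
    LinearMap.comp_apply]
  rw [h2, e2, map_smul, hR, e3, map_smul, map_smul, h1]
  funext v
  simp only [Pi.smul_apply, Pi.sub_apply, smul_eq_mul]
  field_simp
  ring

end

end Vale.Agent.P159.TM.H339
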