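import Vale.Agent.P159.TM.H339.Coarse

/-!
Row C1, second part: the convolution identity for a finite coarse vector, existence of the data.
-/

open MeasureTheory Filter Topology

namespace Vale.Agent.P159.TM.H339

variable {V C : Type} [Fintype V] [Fintype C]

section

variable {φ : (C → ℝ) →ₗ[ℝ] (V → ℝ)} {ψ : (V → ℝ) →ₗ[ℝ] (C → ℝ)}
  {R : (C → ℝ) →ₗ[ℝ] (C → ℝ)} {ε σ : ℝ}

/-- summability of the tilted coarse weights -/
lemma CC.summable_tilt (H : CC φ ψ R ε σ) {K : ℝ} (hK : 0 < K) (hS : ∀ G, ns (φ G) ≤ K * ns G)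
    {W : (V → ℤ) → ℝ} {B : ℝ} (hW0 : ∀ h, 0 ≤ W h)
    (hWB : ∀ h, W h ≤ B) (t : C → ℝ) (f : V → ℝ) :
    Summable fun h : V → ℤ => W h * Real.exp (-(1 / 2) * qf (Tc φ ψ R ε) (rl h - f) +
      (1 / 2) * (t ⬝ᵥ R t) + ε * (t ⬝ᵥ R (ψ (rl h - f)))) := by
  have hB : 0 ≤ B := (hW0 0).trans (hWB 0)
  have hε := H.hε
  have hσ := H.hσ
  set c : ℝ := ε * σ / (ε * K + σ) with hc
  have hc0 : 0 < c := by positivity
  set a : V → ℝ := ε • φ (R t) with ha
  set D : ℝ := (1 / 2) * (t ⬝ᵥ R t) + (1 / c) * ns a with hD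
  have hSm : Summable fun h : V → ℤ => B * (Real.exp D * Real.exp (-(c / 4) * ns (rl h - f))) :=
    ((summable_gV (c := c / 4) (by positivity) f).mul_left _).mul_left _
  refine Summable.of_nonneg_of_le (fun h => mul_nonneg (hW0 h) (Real.exp_nonneg _))
    (fun h => ?_) hSm
  rw [← Real.exp_add]
  refine mul_le_mul (hWB h) (Real.exp_le_exp.2 ?_) (Real.exp_nonneg _) hB
  have h1 := H.Tc_low hK hS (rl h - f)
  have h2 := lin_quad hc0 a (rl h - f)
  have h3 : ε * (t ⬝ᵥ R (ψ (rl h - f))) = a ⬝ᵥ (rl h - f) := by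
    rw [H.cs.R_sym t, ha, smul_dotProduct, smul_eq_mul, H.adj, dotProduct_comm (R t)]
  rw [h3, hD]
  rw [← hc] at h1
  nlinarith

/-- **convolution identity for a finite coarse vector** -/
theorem CC.conv (H : CC φ ψ R ε σ) {K : ℝ} (hK : 0 < K) (hS : ∀ G, ns (φ G) ≤ K * ns G)
    {W : (V → ℤ) → ℝ} {B : ℝ} (hW0 : ∀ h, 0 ≤ W h)
    (hWB : ∀ h, W h ≤ B) (t : C → ℝ) (f : V → ℝ) :
    Integrable (fun G : C → ℝ =>
      Real.exp (-(σ / 2) * ns G) * Ze W ε (f + φ G) * Real.exp (t ⬝ᵥ G)) ∧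
    ∫ G : C → ℝ, Real.exp (-(σ / 2) * ns G) * Ze W ε (f + φ G) * Real.exp (t ⬝ᵥ G) =
      NC φ ψ ε σ * ∑' h : V → ℤ, W h * Real.exp (-(1 / 2) * qf (Tc φ ψ R ε) (rl h - f) +
        (1 / 2) * (t ⬝ᵥ R t) + ε * (t ⬝ᵥ R (ψ (rl h - f)))) := by
  have hε := H.hε
  set F : (V → ℤ) → (C → ℝ) → ℝ := fun h G =>
    W h * (Real.exp (-(σ / 2) * ns G) * Real.exp (-(ε / 2) * ns ((rl h - f) - φ G)) *
      Real.exp (t ⬝ᵥ G)) with hF
  have hFi : ∀ h, Integrable (F h) := fun h => (H.gauss t (rl h - f)).1.const_mul _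
  have hFn : ∀ h g, 0 ≤ F h g := fun h g => mul_nonneg (hW0 h) (by positivity)
  have hval : ∀ h, ∫ g, F h g = NC φ ψ ε σ * (W h * Real.exp (-(1 / 2) *
      qf (Tc φ ψ R ε) (rl h - f) + (1 / 2) * (t ⬝ᵥ R t) + ε * (t ⬝ᵥ R (ψ (rl h - f))))) := by
    intro h
    rw [hF]
    simp only
    rw [integral_const_mul, (H.gauss t (rl h - f)).2]
    ring
  have hsum : Summable fun h => ∫ g, ‖F h g‖ := by
    have e : ∀ h, ∫ g, ‖F h g‖ = NC φ ψ ε σ * (W h * Real.exp (-(1 / 2) *
      qf (Tc φ ψ R ε) (rl h - f) + (1 / 2) * (t ⬝ᵥ R t) + ε * (t ⬝ᵥ R (ψ (rl h - f))))) := by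
      intro h
      rw [← hval h]
      refine integral_congr_ae (ae_of_all _ fun g => ?_)
      simp only [Real.norm_eq_abs, abs_of_nonneg (hFn h g)]
    simp only [e]
    exact (H.summable_tilt hK hS hW0 hWB t f).mul_left _
  have hrw : ∀ h G, F h G = (Real.exp (-(σ / 2) * ns G) * Real.exp (t ⬝ᵥ G)) *
        (W h * Real.exp (-(ε / 2) * ns (rl h - (f + φ G)))) := by
    intro h G
    rw [hF]
    simp only
    rw [show rl h - f - φ G = rl h - (f + φ G) by abel]
    ring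
  have hts : ∀ g, ∑' h, F h g =
      Real.exp (-(σ / 2) * ns g) * Ze W ε (f + φ g) * Real.exp (t ⬝ᵥ g) := by
    intro g
    simp only [hrw]
    rw [tsum_mul_left, Ze]
    ring
  have h1 := hasSum_integral_of_summable_integral_norm hFi hsum
  have h2 : ∫ g, ∑' h, F h g = ∑' h, ∫ g, F h g := h1.tsum_eq.symm
  constructor
  · have hFm : ∀ h, Measurable (F h) := fun h => by
      have c1 : Continuous fun g : C → ℝ => ns g := cont_ns
      have c2 : Continuous fun g : C → ℝ => ns ((rl h - f) - φ g) :=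
        cont_ns.comp (continuous_const.sub (LinearMap.continuous_of_finiteDimensional φ))
      have c3 : Continuous fun g : C → ℝ => t ⬝ᵥ g := by
        simp only [dotProduct]
        exact continuous_finsetSum _ fun v _ => continuous_const.mul (continuous_apply v)
      exact (continuous_const.mul (((Real.continuous_exp.comp (continuous_const.mul c1)).mul
        (Real.continuous_exp.comp (continuous_const.mul c2))).mul
          (Real.continuous_exp.comp c3))).measurable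
    have hsum' : Summable fun h => ∫ g, F h g := by
      refine hsum.congr fun h => ?_
      exact integral_congr_ae (ae_of_all _ fun g => by
        simp only [Real.norm_eq_abs, abs_of_nonneg (hFn h g)])
    have hp : ∀ g, Summable fun h => F h g := by
      intro g
      simp only [hrw]
      exact (summable_Ze hW0 hWB hε (f + φ g)).mul_left _
    have h3 : Integrable (fun g => ∑' h, F h g) :=
      integrable_tsum_nn hFm hFn hFi hsum' hp
    exact h3.congr (ae_of_all _ hts)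
  · simp only [hts] at h2
    rw [h2]
    simp only [hval]
    rw [tsum_mul_left]

/-- without tilt: the coarse partition function -/
theorem CC.conv0 (H : CC φ ψ R ε σ) {K : ℝ} (hK : 0 < K) (hS : ∀ G, ns (φ G) ≤ K * ns G)
    {W : (V → ℤ) → ℝ} {B : ℝ} (hW0 : ∀ h, 0 ≤ W h)
    (hWB : ∀ h, W h ≤ B) (f : V → ℝ) :
    Integrable (fun G : C → ℝ => Real.exp (-(σ / 2) * ns G) * Ze W ε (f + φ G)) ∧
    ∫ G : C → ℝ, Real.exp (-(σ / 2) * ns G) * Ze W ε (f + φ G) =
      NC φ ψ ε σ * ZF W (Tc φ ψ R ε) f := by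
  have h := H.conv hK hS hW0 hWB 0 f
  simpa [ZF] using h

end

/-- the adjoint of a linear map -/
noncomputable def tr [DecidableEq C] (φ : (C → ℝ) →ₗ[ℝ] (V → ℝ)) : (V → ℝ) →ₗ[ℝ] (C → ℝ) where
  toFun u c := φ (Pi.single c 1) ⬝ᵥ u
  map_add' u w := by funext c; simp [dotProduct_add]
  map_smul' a u := by funext c; simp [dotProduct_smul]

lemma tr_adj [DecidableEq C] (φ : (C → ℝ) →ₗ[ℝ] (V → ℝ)) (G : C → ℝ) (u : V → ℝ) :
    (φ G) ⬝ᵥ u = G ⬝ᵥ tr φ u := by
  have h : G = ∑ c, G c • (Pi.single c 1 : C → ℝ) := by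
    funext x
    simp [Finset.sum_apply, Pi.single_apply]
  conv_lhs => rw [h]
  rw [map_sum]
  simp only [map_smul, dotProduct, tr, LinearMap.coe_mk, AddHom.coe_mk, Finset.sum_apply,
    Pi.smul_apply, smul_eq_mul, Finset.sum_mul, Finset.mul_sum]
  rw [Finset.sum_comm]
  exact Finset.sum_congr rfl fun c _ => Finset.sum_congr rfl fun x _ => by ring

/-- existence of the data of a coarse step for every linear `φ` -/
theorem exists_CC [DecidableEq C] (φ : (C → ℝ) →ₗ[ℝ] (V → ℝ)) {ε σ : ℝ} (hε : 0 < ε)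
    (hσ : 0 < σ) : ∃ R, CC φ (tr φ) R ε σ := by
  set S : (C → ℝ) →ₗ[ℝ] (C → ℝ) := ε • (tr φ ∘ₗ φ) + σ • LinearMap.id with hS
  have hinj : Function.Injective S := by
    rw [← LinearMap.ker_eq_bot, LinearMap.ker_eq_bot']
    intro G hG
    have h3 : ε • tr φ (φ G) + σ • G = 0 := by
      simpa [hS] using hG
    have h4 : ε * ns (φ G) + σ * ns G = 0 := by
      have h5 := congrArg (fun x => G ⬝ᵥ x) h3
      simp only [dotProduct_add, dotProduct_smul, smul_eq_mul, dotProduct_zero] at h5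
      rw [← tr_adj φ G (φ G)] at h5
      rw [ns_eq, ns_eq]
      exact h5
    have h6 : ns G = 0 := by
      have a1 := mul_nonneg hε.le (ns_nonneg (φ G))
      have a2 := mul_nonneg hσ.le (ns_nonneg G)
      have : σ * ns G = 0 := by linarith
      rcases mul_eq_zero.1 this with h | h
      · exact absurd h hσ.ne'
      · exact h
    have h7 : ∀ v, G v ^ 2 = 0 := fun v =>
      (Finset.sum_eq_zero_iff_of_nonneg fun _ _ => sq_nonneg _).1 h6 v (Finset.mem_univ _)
    funext v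
    simpa using pow_eq_zero_iff (two_ne_zero) |>.1 (h7 v)
  set E := LinearEquiv.ofInjectiveEndo S hinj with hE
  refine ⟨E.symm.toLinearMap, ⟨hε, hσ, tr_adj φ, fun G => ?_⟩⟩
  have h : S (E.symm G) = G := by
    have := E.apply_symm_apply G
    rwa [hE, LinearEquiv.coe_ofInjectiveEndo] at this
  simpa [hS] using h

end Vale.Agent.P159.TM.H339
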