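import Vale.Agent.P159.H353.ProdSum
import Mathlib

/-!
The coarse step of the finite-size criterion, abstract form.  `W` is a bounded nonnegative weight
on integer fields on a finite set `V`; the mass form `ε - ε² (Q + ε)⁻¹` is the mass form `ε`
convolved with the Gaussian of precision `Q`.
-/

open MeasureTheory Filter Topology

namespace Vale.Agent.P159.TM.H339

variable {V : Type} [Fintype V]

/-- an integer field as a real field -/
def rl (h : V → ℤ) : V → ℝ := fun v => (h v : ℝ)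

/-- quadratic form of an operator -/
def qf (A : (V → ℝ) →ₗ[ℝ] (V → ℝ)) (u : V → ℝ) : ℝ := u ⬝ᵥ (A u)

/-- sum of squares -/
def ns (u : V → ℝ) : ℝ := ∑ v, u v ^ 2

/-- partition function with uniform mass `ε` and real background `f` -/
noncomputable def Ze (W : (V → ℤ) → ℝ) (ε : ℝ) (f : V → ℝ) : ℝ :=
  ∑' h : V → ℤ, W h * Real.exp (-(ε / 2) * ns (rl h - f))

/-- partition function with mass form `A` and real background `f` -/
noncomputable def ZF (W : (V → ℤ) → ℝ) (A : (V → ℝ) →ₗ[ℝ] (V → ℝ)) (f : V → ℝ) : ℝ :=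
  ∑' h : V → ℤ, W h * Real.exp (-(1 / 2) * qf A (rl h - f))

lemma ns_nonneg (u : V → ℝ) : 0 ≤ ns u := Finset.sum_nonneg fun _ _ => sq_nonneg _

lemma ns_eq (u : V → ℝ) : ns u = u ⬝ᵥ u := by
  simp only [ns, dotProduct, sq]

/-- product of absolutely convergent real series -/
theorem prod_real {a : V → ℤ → ℝ} (ha : ∀ e, Summable (a e)) :
    HasSum (fun n : V → ℤ => ∏ e, a e (n e)) (∏ e, ∑' k, a e k) := by
  have h := Vale.Agent.P159.H353.prod_tsum_all ℤ V (fun e n => ((a e n : ℝ) : ℂ)) (fun e => by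
    simpa only [Complex.norm_real] using (ha e).norm)
  have hs : Summable fun n : V → ℤ => ∏ e, a e (n e) := by
    rw [← summable_norm_iff]
    refine h.1.congr fun n => ?_
    rw [← Complex.ofReal_prod, Complex.norm_real]
  have h2 := h.2
  have h3 : ((∑' n : V → ℤ, ∏ e, a e (n e) : ℝ) : ℂ) = ((∏ e, ∑' k, a e k : ℝ) : ℂ) := by
    rw [Complex.ofReal_tsum]
    push_cast
    simpa using h2
  rw [← Complex.ofReal_injective h3]
  exact hs.hasSum

/-- one-dimensional Gaussian series -/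
lemma summable_g1 {c : ℝ} (hc : 0 < c) (s : ℝ) :
    Summable fun n : ℤ => Real.exp (-c * ((n : ℝ) - s) ^ 2) := by
  have h := HurwitzKernelBounds.summable_f_int 0 (-s) (t := c / Real.pi)
    (div_pos hc Real.pi_pos)
  refine h.congr fun n => ?_
  simp only [HurwitzKernelBounds.f_int, pow_zero, one_mul]
  congr 1
  field_simp
  ring

lemma exp_ns (c : ℝ) (u : V → ℝ) : Real.exp (-c * ns u) = ∏ v, Real.exp (-c * u v ^ 2) := by
  rw [ns, Finset.mul_sum, Real.exp_sum]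

lemma summable_gV {c : ℝ} (hc : 0 < c) (f : V → ℝ) :
    Summable fun h : V → ℤ => Real.exp (-c * ns (rl h - f)) := by
  have h := (prod_real (V := V) (a := fun v n => Real.exp (-c * ((n : ℝ) - f v) ^ 2))
    (fun v => summable_g1 hc (f v))).summable
  refine h.congr fun n => ?_
  rw [exp_ns]
  rfl

section bounded

variable {W : (V → ℤ) → ℝ} {B : ℝ}

lemma summable_Ze (hW0 : ∀ h, 0 ≤ W h) (hWB : ∀ h, W h ≤ B) {ε : ℝ} (hε : 0 < ε) (f : V → ℝ) :
    Summable fun h : V → ℤ => W h * Real.exp (-(ε / 2) * ns (rl h - f)) := by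
  refine Summable.of_nonneg_of_le (fun h => mul_nonneg (hW0 h) (Real.exp_nonneg _))
    (fun h => ?_) ((summable_gV (half_pos hε) f).mul_left B)
  exact mul_le_mul_of_nonneg_right (hWB h) (Real.exp_nonneg _)

lemma summable_ZF (hW0 : ∀ h, 0 ≤ W h) (hWB : ∀ h, W h ≤ B) {A : (V → ℝ) →ₗ[ℝ] (V → ℝ)}
    {c : ℝ} (hc : 0 < c) (hA : ∀ u, c * ns u ≤ qf A u) (f : V → ℝ) :
    Summable fun h : V → ℤ => W h * Real.exp (-(1 / 2) * qf A (rl h - f)) := by
  have hB : 0 ≤ B := (hW0 0).trans (hWB 0)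
  refine Summable.of_nonneg_of_le (fun h => mul_nonneg (hW0 h) (Real.exp_nonneg _))
    (fun h => ?_) ((summable_gV (half_pos hc) f).mul_left B)
  refine mul_le_mul (hWB h) (Real.exp_le_exp.2 ?_) (Real.exp_nonneg _) hB
  have := hA (rl h - f)
  nlinarith

end bounded

/-- the data of a coarse step: `Q` symmetric, `q ≤ Q` with `0 ≤ q`, `R = (Q + ε)⁻¹` -/
structure CS (Q R : (V → ℝ) →ₗ[ℝ] (V → ℝ)) (ε q : ℝ) : Prop where
  hε : 0 < ε
  hq : 0 ≤ q
  sym : ∀ u w, u ⬝ᵥ Q w = w ⬝ᵥ Q u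
  inv : ∀ u, Q (R u) + ε • R u = u
  low : ∀ u, q * ns u ≤ qf Q u

/-- the coarse mass form -/
noncomputable def Tf (R : (V → ℝ) →ₗ[ℝ] (V → ℝ)) (ε : ℝ) : (V → ℝ) →ₗ[ℝ] (V → ℝ) :=
  ε • LinearMap.id - (ε ^ 2) • R

lemma qf_Tf (R : (V → ℝ) →ₗ[ℝ] (V → ℝ)) (ε : ℝ) (u : V → ℝ) :
    qf (Tf R ε) u = ε * (u ⬝ᵥ u) - ε ^ 2 * (u ⬝ᵥ R u) := by
  simp [qf, Tf, dotProduct_sub, dotProduct_smul, smul_eq_mul]

section alg

variable {Q R : (V → ℝ) →ₗ[ℝ] (V → ℝ)} {ε q : ℝ}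

/-- completing the square -/
lemma CS.expo (H : CS Q R ε q) (g u w : V → ℝ) :
    -(1 / 2) * qf Q g - (ε / 2) * ns (u - g) + w ⬝ᵥ g =
      -(1 / 2) * (qf Q (g - R (ε • u + w)) + ε * ns (g - R (ε • u + w)))
        - (1 / 2) * qf (Tf R ε) u + (1 / 2) * (w ⬝ᵥ R w) + ε * (w ⬝ᵥ R u) := by
  set a := R (ε • u + w) with ha
  have h1 : Q a + ε • a = ε • u + w := H.inv _
  have h2 : g ⬝ᵥ Q a + ε * (g ⬝ᵥ a) = ε * (g ⬝ᵥ u) + g ⬝ᵥ w := by
    have := congrArg (fun x => g ⬝ᵥ x) h1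
    simpa [dotProduct_add, dotProduct_smul, smul_eq_mul] using this
  have h3 : a ⬝ᵥ Q a + ε * (a ⬝ᵥ a) = ε * (a ⬝ᵥ u) + a ⬝ᵥ w := by
    have := congrArg (fun x => a ⬝ᵥ x) h1
    simpa [dotProduct_add, dotProduct_smul, smul_eq_mul] using this
  have h4 : a = ε • R u + R w := by rw [ha, map_add, map_smul]
  have h5 : a ⬝ᵥ u = ε * (u ⬝ᵥ R u) + u ⬝ᵥ R w := by
    rw [h4, add_dotProduct, smul_dotProduct, smul_eq_mul, dotProduct_comm (R u),
      dotProduct_comm (R w)]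
  have h6 : a ⬝ᵥ w = ε * (w ⬝ᵥ R u) + w ⬝ᵥ R w := by
    rw [h4, add_dotProduct, smul_dotProduct, smul_eq_mul, dotProduct_comm (R u),
      dotProduct_comm (R w)]
  -- symmetry of `R`
  have h7 : u ⬝ᵥ R w = w ⬝ᵥ R u := by
    have e1 : Q (R w) + ε • R w = w := H.inv w
    have e2 : Q (R u) + ε • R u = u := H.inv u
    have e3 : (R u) ⬝ᵥ Q (R w) + ε * (R u ⬝ᵥ R w) = R u ⬝ᵥ w := by
      have := congrArg (fun x => R u ⬝ᵥ x) e1
      simpa [dotProduct_add, dotProduct_smul, smul_eq_mul] using this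
    have e4 : (R w) ⬝ᵥ Q (R u) + ε * (R w ⬝ᵥ R u) = R w ⬝ᵥ u := by
      have := congrArg (fun x => R w ⬝ᵥ x) e2
      simpa [dotProduct_add, dotProduct_smul, smul_eq_mul] using this
    have e5 := H.sym (R u) (R w)
    have e6 : R w ⬝ᵥ R u = R u ⬝ᵥ R w := dotProduct_comm _ _
    rw [dotProduct_comm u, dotProduct_comm w, ← e3, ← e4, e5, e6]
  have h8 : qf Q (g - a) = qf Q g - 2 * (g ⬝ᵥ Q a) + a ⬝ᵥ Q a := by
    have := H.sym a g
    simp only [qf, map_sub, sub_dotProduct, dotProduct_sub]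
    rw [this]; ring
  have h9 : ns (g - a) = ns g - 2 * (g ⬝ᵥ a) + a ⬝ᵥ a := by
    simp only [ns_eq, sub_dotProduct, dotProduct_sub]
    rw [dotProduct_comm a g]; ring
  have h10 : ns (u - g) = u ⬝ᵥ u - 2 * (g ⬝ᵥ u) + ns g := by
    simp only [ns_eq, sub_dotProduct, dotProduct_sub]
    rw [dotProduct_comm u g]; ring
  rw [h8, h9, h10, qf_Tf, dotProduct_comm w g]
  linear_combination (-1) * h2 + (1 / 2) * h3 + (ε / 2) * h5 + (1 / 2) * h6 + (ε / 2) * h7

lemma CS.Tf_low (H : CS Q R ε q) (u : V → ℝ) : (q * ε / (q + ε)) * ns u ≤ qf (Tf R ε) u := by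
  have h := H.expo (R (ε • u)) u 0
  have hq := H.hq
  have hε := H.hε
  simp only [add_zero, sub_self, zero_dotProduct, mul_zero] at h
  have hn0 : ns (0 : V → ℝ) = 0 := by simp [ns]
  have hq0 : qf Q (0 : V → ℝ) = 0 := by simp [qf]
  rw [hn0, hq0] at h
  have h1 : qf (Tf R ε) u = qf Q (R (ε • u)) + ε * ns (u - R (ε • u)) := by linarith
  rw [h1]
  have h2 := H.low (R (ε • u))
  have h3 : (q * ε / (q + ε)) * ns u ≤ q * ns (R (ε • u)) + ε * ns (u - R (ε • u)) := by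
    simp only [ns, Finset.mul_sum]
    rw [← Finset.sum_add_distrib]
    refine Finset.sum_le_sum fun v _ => ?_
    simp only [Pi.sub_apply]
    set x := u v
    set y := R (ε • u) v
    have hs : 0 < q + ε := add_pos_of_nonneg_of_pos hq hε
    rw [div_mul_eq_mul_div, div_le_iff₀ hs]
    nlinarith [sq_nonneg (q * y - ε * (x - y))]
  linarith

end alg

end Vale.Agent.P159.TM.H339
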