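import Vale.Agent.P159.TM.H339.Conv

/-!
Gaussian convolution of the mass form.
-/

open MeasureTheory Filter Topology

namespace Vale.Agent.P159.TM.H339

variable {V : Type} [Fintype V]

lemma cont_ns : Continuous (ns : (V → ℝ) → ℝ) := by
  unfold ns
  fun_prop

lemma cont_lin (A : (V → ℝ) →ₗ[ℝ] (V → ℝ)) : Continuous A :=
  LinearMap.continuous_of_finiteDimensional A

lemma cont_qf (A : (V → ℝ) →ₗ[ℝ] (V → ℝ)) : Continuous (qf A) := by
  unfold qf
  have h := cont_lin A
  simp only [dotProduct]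
  refine continuous_finsetSum _ fun v _ => ?_
  exact (continuous_apply v).mul ((continuous_apply v).comp h)

lemma integrable_gauss {c : ℝ} (hc : 0 < c) :
    Integrable (fun g : V → ℝ => Real.exp (-c * ns g)) := by
  have h : Integrable (fun g : V → ℝ => ∏ v, Real.exp (-c * g v ^ 2)) :=
    Integrable.fintype_prod fun _ => integrable_exp_neg_mul_sq hc
  refine h.congr (ae_of_all _ fun g => ?_)
  simp only [exp_ns]

lemma lin_quad {c : ℝ} (hc : 0 < c) (a u : V → ℝ) :
    a ⬝ᵥ u ≤ (c / 4) * ns u + (1 / c) * ns a := by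
  simp only [dotProduct, ns, Finset.mul_sum]
  rw [← Finset.sum_add_distrib]
  refine Finset.sum_le_sum fun v _ => ?_
  have h : 0 ≤ (c / 4) * (u v - 2 / c * a v) ^ 2 := by positivity
  have h2 : (c / 4) * (u v - 2 / c * a v) ^ 2 =
      c / 4 * u v ^ 2 + 1 / c * a v ^ 2 - a v * u v := by
    field_simp; ring
  linarith

/-- integrability of a sum of nonnegative functions -/
lemma integrable_tsum_nn {ι α : Type*} [Countable ι] [MeasurableSpace α] {μ : Measure α}
    {F : ι → α → ℝ} (hm : ∀ i, Measurable (F i)) (h0 : ∀ i a, 0 ≤ F i a)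
    (hi : ∀ i, Integrable (F i) μ) (hs : Summable fun i => ∫ a, F i a ∂μ)
    (hp : ∀ a, Summable fun i => F i a) : Integrable (fun a => ∑' i, F i a) μ := by
  have e : ∀ a, ∑' i, F i a = (∑' i, ENNReal.ofReal (F i a)).toReal := by
    intro a
    rw [← ENNReal.ofReal_tsum_of_nonneg (fun i => h0 i a) (hp a),
      ENNReal.toReal_ofReal (tsum_nonneg fun i => h0 i a)]
  simp only [e]
  have hmm : ∀ i, Measurable fun a => ENNReal.ofReal (F i a) := fun i =>
    (hm i).ennreal_ofReal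
  refine integrable_toReal_of_lintegral_ne_top (Measurable.ennreal_tsum hmm).aemeasurable ?_
  rw [lintegral_tsum fun i => (hmm i).aemeasurable]
  have e2 : ∀ i, ∫⁻ a, ENNReal.ofReal (F i a) ∂μ = ENNReal.ofReal (∫ a, F i a ∂μ) := fun i =>
    (ofReal_integral_eq_lintegral_ofReal (hi i) (ae_of_all _ (h0 i))).symm
  simp only [e2]
  rw [← ENNReal.ofReal_tsum_of_nonneg (fun i => integral_nonneg (h0 i)) hs]
  exact ENNReal.ofReal_ne_top

lemma meas_tsum_nn {ι α : Type*} [Countable ι] [MeasurableSpace α]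
    {F : ι → α → ℝ} (hm : ∀ i, Measurable (F i)) (h0 : ∀ i a, 0 ≤ F i a)
    (hp : ∀ a, Summable fun i => F i a) : Measurable (fun a => ∑' i, F i a) := by
  have e : ∀ a, ∑' i, F i a = (∑' i, ENNReal.ofReal (F i a)).toReal := by
    intro a
    rw [← ENNReal.ofReal_tsum_of_nonneg (fun i => h0 i a) (hp a),
      ENNReal.toReal_ofReal (tsum_nonneg fun i => h0 i a)]
  simp only [e]
  exact (Measurable.ennreal_tsum fun i => (hm i).ennreal_ofReal).ennreal_toReal

section CSs

variable {Q R : (V → ℝ) →ₗ[ℝ] (V → ℝ)} {ε q : ℝ}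

/-- normalisation of the Gaussian of precision `Q + ε` -/
noncomputable def NP (Q : (V → ℝ) →ₗ[ℝ] (V → ℝ)) (ε : ℝ) : ℝ :=
  ∫ g : V → ℝ, Real.exp (-(1 / 2) * (qf Q g + ε * ns g))

lemma CS.int0 (H : CS Q R ε q) :
    Integrable (fun g : V → ℝ => Real.exp (-(1 / 2) * (qf Q g + ε * ns g))) := by
  have hc : Continuous (fun g : V → ℝ => Real.exp (-(1 / 2) * (qf Q g + ε * ns g))) :=
    Real.continuous_exp.comp (continuous_const.mul ((cont_qf Q).add (continuous_const.mul cont_ns)))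
  refine (integrable_gauss (V := V) (half_pos H.hε)).mono' hc.aestronglyMeasurable
    (ae_of_all _ fun g => ?_)
  rw [Real.norm_eq_abs, abs_of_pos (Real.exp_pos _)]
  refine Real.exp_le_exp.2 ?_
  have h1 := H.low g
  have h2 := mul_nonneg H.hq (ns_nonneg g)
  nlinarith

lemma CS.NP_pos (H : CS Q R ε q) : 0 < NP Q ε := by
  unfold NP
  rw [integral_pos_iff_support_of_nonneg (fun g => (Real.exp_pos _).le) H.int0]
  have : Function.support (fun g : V → ℝ => Real.exp (-(1 / 2) * (qf Q g + ε * ns g))) =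
      Set.univ := by
    ext g; simp
  rw [this]
  exact isOpen_univ.measure_pos volume ⟨0, trivial⟩

/-- integral of one shifted Gaussian -/
lemma CS.gauss (H : CS Q R ε q) (w u : V → ℝ) :
    Integrable (fun g : V → ℝ =>
      Real.exp (-(1 / 2) * qf Q g) * Real.exp (-(ε / 2) * ns (u - g)) * Real.exp (w ⬝ᵥ g)) ∧
    ∫ g : V → ℝ, Real.exp (-(1 / 2) * qf Q g) * Real.exp (-(ε / 2) * ns (u - g)) *
      Real.exp (w ⬝ᵥ g) =
      NP Q ε * Real.exp (-(1 / 2) * qf (Tf R ε) u + (1 / 2) * (w ⬝ᵥ R w) + ε * (w ⬝ᵥ R u)) := by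
  set a := R (ε • u + w) with ha
  set K : ℝ := -(1 / 2) * qf (Tf R ε) u + (1 / 2) * (w ⬝ᵥ R w) + ε * (w ⬝ᵥ R u) with hK
  have e : ∀ g : V → ℝ, Real.exp (-(1 / 2) * qf Q g) * Real.exp (-(ε / 2) * ns (u - g)) *
      Real.exp (w ⬝ᵥ g) =
      Real.exp (-(1 / 2) * (qf Q (g + -a) + ε * ns (g + -a))) * Real.exp K := by
    intro g
    rw [← Real.exp_add, ← Real.exp_add, ← Real.exp_add]
    congr 1
    have := H.expo g u w
    rw [← sub_eq_add_neg]
    rw [hK, ← ha] at *
    linarith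
  simp only [e]
  constructor
  · exact (H.int0.comp_add_right (-a)).mul_const _
  · rw [integral_mul_const]
    rw [integral_add_right_eq_self
      (fun g : V → ℝ => Real.exp (-(1 / 2) * (qf Q g + ε * ns g))) (-a)]
    rfl

lemma CS.R_sym (H : CS Q R ε q) (u w : V → ℝ) : u ⬝ᵥ R w = w ⬝ᵥ R u := by
  have e1 : Q (R w) + ε • R w = w := H.inv w
  have e2 : Q (R u) + ε • R u = u := H.inv u
  have e3 : (R u) ⬝ᵥ Q (R w) + ε * (R u ⬝ᵥ R w) = R u ⬝ᵥ w := by
    have := congrArg (fun x => R u ⬝ᵥ x) e1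
    simpa [dotProduct_add, dotProduct_smul, smul_eq_mul] using this
  have e4 : (R w) ⬝ᵥ Q (R u) + ε * (R w ⬝ᵥ R u) = R w ⬝ᵥ u := by
    have := congrArg (fun x => R w ⬝ᵥ x) e2
    simpa [dotProduct_add, dotProduct_smul, smul_eq_mul] using this
  have e5 := H.sym (R u) (R w)
  have e6 : R w ⬝ᵥ R u = R u ⬝ᵥ R w := dotProduct_comm _ _
  rw [dotProduct_comm u, dotProduct_comm w, ← e3, ← e4, e5, e6]

/-- summability of the tilted coarse weights -/
lemma CS.summable_tilt (H : CS Q R ε q) (hq : 0 < q) {W : (V → ℤ) → ℝ} {B : ℝ} (hW0 : ∀ h, 0 ≤ W h)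
    (hWB : ∀ h, W h ≤ B) (w f : V → ℝ) :
    Summable fun h : V → ℤ => W h * Real.exp (-(1 / 2) * qf (Tf R ε) (rl h - f) +
      (1 / 2) * (w ⬝ᵥ R w) + ε * (w ⬝ᵥ R (rl h - f))) := by
  have hB : 0 ≤ B := (hW0 0).trans (hWB 0)
  have hε := H.hε
  set c : ℝ := q * ε / (q + ε) with hc
  have hc0 : 0 < c := by positivity
  set C : ℝ := (1 / 2) * (w ⬝ᵥ R w) + (1 / c) * ns (ε • R w) with hC
  have hS : Summable fun h : V → ℤ => B * (Real.exp C * Real.exp (-(c / 4) * ns (rl h - f))) :=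
    ((summable_gV (c := c / 4) (by positivity) f).mul_left _).mul_left _
  refine Summable.of_nonneg_of_le (fun h => mul_nonneg (hW0 h) (Real.exp_nonneg _))
    (fun h => ?_) hS
  rw [← Real.exp_add]
  refine mul_le_mul (hWB h) (Real.exp_le_exp.2 ?_) (Real.exp_nonneg _) hB
  have h1 := H.Tf_low (rl h - f)
  have h2 := lin_quad hc0 (ε • R w) (rl h - f)
  have h3 : ε * (w ⬝ᵥ R (rl h - f)) = (ε • R w) ⬝ᵥ (rl h - f) := by
    rw [H.R_sym w, smul_dotProduct, smul_eq_mul, dotProduct_comm (R w)]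
  rw [h3, hC]
  rw [← hc] at h1
  nlinarith

/-- **convolution identity** -/
theorem CS.conv (H : CS Q R ε q) (hq : 0 < q) {W : (V → ℤ) → ℝ} {B : ℝ} (hW0 : ∀ h, 0 ≤ W h)
    (hWB : ∀ h, W h ≤ B) (w f : V → ℝ) :
    Integrable (fun g : V → ℝ =>
      Real.exp (-(1 / 2) * qf Q g) * Ze W ε (f + g) * Real.exp (w ⬝ᵥ g)) ∧
    ∫ g : V → ℝ, Real.exp (-(1 / 2) * qf Q g) * Ze W ε (f + g) * Real.exp (w ⬝ᵥ g) =
      NP Q ε * ∑' h : V → ℤ, W h * Real.exp (-(1 / 2) * qf (Tf R ε) (rl h - f) +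
        (1 / 2) * (w ⬝ᵥ R w) + ε * (w ⬝ᵥ R (rl h - f))) := by
  have hε := H.hε
  set F : (V → ℤ) → (V → ℝ) → ℝ := fun h g =>
    W h * (Real.exp (-(1 / 2) * qf Q g) * Real.exp (-(ε / 2) * ns ((rl h - f) - g)) *
      Real.exp (w ⬝ᵥ g)) with hF
  have hFi : ∀ h, Integrable (F h) := fun h => (H.gauss w (rl h - f)).1.const_mul _
  have hFn : ∀ h g, 0 ≤ F h g := fun h g => mul_nonneg (hW0 h) (by positivity)
  have hval : ∀ h, ∫ g, F h g = NP Q ε * (W h * Real.exp (-(1 / 2) * qf (Tf R ε) (rl h - f) +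
        (1 / 2) * (w ⬝ᵥ R w) + ε * (w ⬝ᵥ R (rl h - f)))) := by
    intro h
    rw [hF]
    simp only
    rw [integral_const_mul, (H.gauss w (rl h - f)).2]
    ring
  have hsum : Summable fun h => ∫ g, ‖F h g‖ := by
    have e : ∀ h, ∫ g, ‖F h g‖ = NP Q ε * (W h * Real.exp (-(1 / 2) * qf (Tf R ε) (rl h - f) +
        (1 / 2) * (w ⬝ᵥ R w) + ε * (w ⬝ᵥ R (rl h - f)))) := by
      intro h
      rw [← hval h]
      refine integral_congr_ae (ae_of_all _ fun g => ?_)
      simp only [Real.norm_eq_abs, abs_of_nonneg (hFn h g)]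
    simp only [e]
    exact (H.summable_tilt hq hW0 hWB w f).mul_left _
  have hts : ∀ g, ∑' h, F h g =
      Real.exp (-(1 / 2) * qf Q g) * Ze W ε (f + g) * Real.exp (w ⬝ᵥ g) := by
    intro g
    have e : ∀ h, F h g = (Real.exp (-(1 / 2) * qf Q g) * Real.exp (w ⬝ᵥ g)) *
        (W h * Real.exp (-(ε / 2) * ns (rl h - (f + g)))) := by
      intro h
      rw [hF]
      simp only
      rw [show rl h - f - g = rl h - (f + g) by abel]
      ring
    simp only [e]
    rw [tsum_mul_left, Ze]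
    ring
  have h1 := hasSum_integral_of_summable_integral_norm hFi hsum
  have h2 : ∫ g, ∑' h, F h g = ∑' h, ∫ g, F h g := h1.tsum_eq.symm
  constructor
  · have hFm : ∀ h, Measurable (F h) := fun h => by
      have c1 : Continuous fun g : V → ℝ => qf Q g := cont_qf Q
      have c2 : Continuous fun g : V → ℝ => ns ((rl h - f) - g) :=
        cont_ns.comp (continuous_const.sub continuous_id)
      have c3 : Continuous fun g : V → ℝ => w ⬝ᵥ g := by
        simp only [dotProduct]
        exact continuous_finsetSum _ fun v _ => continuous_const.mul (continuous_apply v)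
      exact (continuous_const.mul (((Real.continuous_exp.comp (continuous_const.mul c1)).mul
        (Real.continuous_exp.comp (continuous_const.mul c2))).mul
          (Real.continuous_exp.comp c3))).measurable
    have hsum' : Summable fun h => ∫ g, F h g := by
      refine hsum.congr fun h => ?_
      exact integral_congr_ae (ae_of_all _ fun g => by
        simp only [Real.norm_eq_abs, abs_of_nonneg (hFn h g)])
    have hp : ∀ g, Summable fun h => F h g := by
      intro g
      have e : ∀ h, F h g = (Real.exp (-(1 / 2) * qf Q g) * Real.exp (w ⬝ᵥ g)) *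
          (W h * Real.exp (-(ε / 2) * ns (rl h - (f + g)))) := by
        intro h
        rw [hF]
        simp only
        rw [show rl h - f - g = rl h - (f + g) by abel]
        ring
      simp only [e]
      exact (summable_Ze hW0 hWB hε (f + g)).mul_left _
    have h3 : Integrable (fun g => ∑' h, F h g) :=
      integrable_tsum_nn hFm hFn hFi hsum' hp
    exact h3.congr (ae_of_all _ hts)
  · simp only [hts] at h2
    rw [h2]
    simp only [hval]
    rw [tsum_mul_left]

end CSs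

end Vale.Agent.P159.TM.H339
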