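import Vale.Agent.P159.TM.H339.Coarse2
import Vale.Agent.P159.TM.H416.E7
import Vale.Agent.P159.TM.H871.Inst

/-!
Row C1, third part: positivity `Z(u) ≤ Z(0)` for mass forms from the four copy inequality, and the
comparison of the coarse mass form with the uniform mass (`kap (ε/M²) ≤ kap'`).
-/

open MeasureTheory Filter Topology

namespace Vale.Agent.P159.TM.H339

variable {V : Type} [Fintype V]

/-- four copy inequality for the mass form `A` -/
def GinF (W : (V → ℤ) → ℝ) (A : (V → ℝ) →ₗ[ℝ] (V → ℝ)) : Prop :=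
  ∀ f g : V → ℝ, (ZF W A f * ZF W A g) ^ 2 ≤ ZF W A (f + g) * ZF W A (f - g) * ZF W A 0 ^ 2

/-- symmetric forms bounded below by `c` -/
structure FormGe (A : (V → ℝ) →ₗ[ℝ] (V → ℝ)) (c : ℝ) : Prop where
  pos : 0 < c
  low : ∀ u, c * ns u ≤ qf A u
  sym : ∀ u w, u ⬝ᵥ A w = w ⬝ᵥ A u

/-- bounded nonnegative weight, positive at zero field, four copies for every mass form -/
structure Good (W : (V → ℤ) → ℝ) (B : ℝ) : Prop where
  nonneg : ∀ h, 0 ≤ W h
  le : ∀ h, W h ≤ B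
  pos : ∃ h, 0 < W h
  gin : ∀ A c, FormGe A c → GinF W A

/-- uniform bound of one-dimensional Gaussian series -/
lemma g1_bdd {c : ℝ} (hc : 0 < c) : ∃ C, ∀ s : ℝ, ∑' n : ℤ, Real.exp (-c * ((n : ℝ) - s) ^ 2) ≤ C := by
  refine ⟨∑' n : ℤ, Real.exp c * Real.exp (-(c / 2) * ((n : ℝ) - 0) ^ 2), fun s => ?_⟩
  have h1 : ∑' n : ℤ, Real.exp (-c * ((n : ℝ) - s) ^ 2) =
      ∑' n : ℤ, Real.exp (-c * ((n : ℝ) - Int.fract s) ^ 2) := by
    rw [← (Equiv.addRight ⌊s⌋).tsum_eq]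
    refine tsum_congr fun n => ?_
    simp only [Equiv.coe_addRight]
    congr 2
    have := Int.self_sub_floor s
    push_cast
    rw [← this]
    ring
  rw [h1]
  refine Summable.tsum_le_tsum (fun n => ?_) (summable_g1 hc _)
    ((summable_g1 (half_pos hc) 0).mul_left _)
  rw [← Real.exp_add]
  refine Real.exp_le_exp.2 ?_
  have h2 := Int.fract_nonneg s
  have h3 := (Int.fract_lt_one s).le
  set x := Int.fract s
  have h4 : x ^ 2 ≤ 1 := by nlinarith
  have h5 : (n : ℝ) ^ 2 ≤ 2 * ((n : ℝ) - x) ^ 2 + 2 * x ^ 2 := by nlinarith [sq_nonneg ((n : ℝ) - 2 * x)]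
  nlinarith

lemma gV_bdd {c : ℝ} (hc : 0 < c) : ∃ C, ∀ f : V → ℝ,
    ∑' h : V → ℤ, Real.exp (-c * ns (rl h - f)) ≤ C := by
  obtain ⟨C, hC⟩ := g1_bdd hc
  refine ⟨∏ _v : V, C, fun f => ?_⟩
  have h := (prod_real (V := V) (a := fun v n => Real.exp (-c * ((n : ℝ) - f v) ^ 2))
    (fun v => summable_g1 hc (f v))).tsum_eq
  have e : ∑' h : V → ℤ, Real.exp (-c * ns (rl h - f)) =
      ∑' h : V → ℤ, ∏ v, Real.exp (-c * ((h v : ℝ) - f v) ^ 2) :=
    tsum_congr fun h => by rw [exp_ns]; rfl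
  rw [e, h]
  exact Finset.prod_le_prod (fun v _ => tsum_nonneg fun _ => Real.exp_nonneg _) fun v _ => hC _

section

variable {W : (V → ℤ) → ℝ} {B : ℝ} {A : (V → ℝ) →ₗ[ℝ] (V → ℝ)} {c : ℝ}

lemma Good.ZF_pos (hW : Good W B) (hA : FormGe A c) (f : V → ℝ) : 0 < ZF W A f := by
  obtain ⟨h, hh⟩ := hW.pos
  have hs := summable_ZF hW.nonneg hW.le hA.pos hA.low f
  exact hs.tsum_pos (fun _ => mul_nonneg (hW.nonneg _) (Real.exp_nonneg _)) h
    (mul_pos hh (Real.exp_pos _))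

lemma Good.ZF_bdd (hW : Good W B) (hA : FormGe A c) : ∃ C, ∀ f : V → ℝ, ZF W A f ≤ C := by
  obtain ⟨C, hC⟩ := gV_bdd (V := V) (half_pos hA.pos)
  have hB : 0 ≤ B := (hW.nonneg 0).trans (hW.le 0)
  refine ⟨B * C, fun f => ?_⟩
  have h1 : ZF W A f ≤ ∑' h : V → ℤ, B * Real.exp (-(c / 2) * ns (rl h - f)) := by
    refine Summable.tsum_le_tsum (fun h => ?_) (summable_ZF hW.nonneg hW.le hA.pos hA.low f)
      ((summable_gV (half_pos hA.pos) f).mul_left B)
    refine mul_le_mul (hW.le h) (Real.exp_le_exp.2 ?_) (Real.exp_nonneg _) hB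
    have := hA.low (rl h - f)
    nlinarith
  rw [tsum_mul_left] at h1
  exact h1.trans (mul_le_mul_of_nonneg_left (hC f) hB)

/-- **positivity of the energy of a background** -/
theorem Good.ZF_le_zero (hW : Good W B) (hA : FormGe A c) (u : V → ℝ) :
    ZF W A u ≤ ZF W A 0 := by
  by_contra hcon
  rw [not_le] at hcon
  have h0 := hW.ZF_pos hA 0
  obtain ⟨C, hC⟩ := hW.ZF_bdd hA
  set z : (V → ℝ) → ℝ := fun f => ZF W A f / ZF W A 0 with hz
  have hzpos : ∀ f, 0 < z f := fun f => div_pos (hW.ZF_pos hA f) h0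
  have hstep : ∀ f, z f ^ 4 ≤ z (f + f) := by
    intro f
    have h := hW.gin A c hA f f
    rw [sub_self] at h
    have e1 : z f ^ 4 = (ZF W A f * ZF W A f) ^ 2 / ZF W A 0 ^ 4 := by
      rw [hz]; simp only; rw [div_pow]; ring_nf
    have e2 : z (f + f) = (ZF W A (f + f) * ZF W A 0 * ZF W A 0 ^ 2) / ZF W A 0 ^ 4 := by
      rw [hz]; simp only; field_simp
    rw [e1, e2]
    exact div_le_div_of_nonneg_right h (by positivity)
  have hz1 : 1 < z u := by rw [hz]; simp only; rwa [one_lt_div h0]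
  have hpow : ∀ n : ℕ, z u ^ (4 ^ n) ≤ z ((2 : ℝ) ^ n • u) := by
    intro n
    induction n with
    | zero => simp
    | succ n ih =>
      have e : ((2 : ℝ) ^ (n + 1) • u) = (2 : ℝ) ^ n • u + (2 : ℝ) ^ n • u := by
        rw [pow_succ, ← add_smul]; ring_nf
      rw [e]
      refine le_trans ?_ (hstep _)
      calc z u ^ 4 ^ (n + 1) = (z u ^ 4 ^ n) ^ 4 := by rw [← pow_mul, pow_succ]
        _ ≤ _ := pow_le_pow_left₀ (pow_nonneg (hzpos u).le _) ih 4
  have hbd : ∀ n : ℕ, z u ^ n ≤ C / ZF W A 0 := by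
    intro n
    have h1 : n ≤ 4 ^ n := (Nat.lt_pow_self (by norm_num)).le
    calc z u ^ n ≤ z u ^ 4 ^ n := pow_le_pow_right₀ hz1.le h1
      _ ≤ z ((2 : ℝ) ^ n • u) := hpow n
      _ ≤ C / ZF W A 0 := div_le_div_of_nonneg_right (hC _) h0.le
  obtain ⟨n, hn⟩ := pow_unbounded_of_one_lt (C / ZF W A 0) hz1
  exact absurd (hbd n) (not_le.2 hn)

end

/-- a nonnegative symmetric form is a finite sum of squares -/
lemma sum_squares [DecidableEq V] {D : (V → ℝ) →ₗ[ℝ] (V → ℝ)}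
    (hs : ∀ u w, u ⬝ᵥ D w = w ⬝ᵥ D u) (h0 : ∀ u, 0 ≤ qf D u) :
    ∃ (m : ℕ) (v : Fin m → V → ℝ), ∀ u, qf D u = ∑ i, (v i ⬝ᵥ u) ^ 2 := by
  set M : Matrix V V ℝ := LinearMap.toMatrix' D with hM
  have hMv : ∀ u, M.mulVec u = D u := fun u => by
    rw [hM, ← Matrix.toLin'_apply, Matrix.toLin'_toMatrix']
  have hherm : M.IsHermitian := by
    ext i j
    rw [Matrix.conjTranspose_apply, star_trivial]
    have h := hs (Pi.single i 1) (Pi.single j 1)
    simp only [single_one_dotProduct] at h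
    rw [hM]
    simp only [LinearMap.toMatrix'_apply]
    exact h.symm
  have hpsd : M.PosSemidef := by
    refine Matrix.PosSemidef.of_dotProduct_mulVec_nonneg hherm fun x => ?_
    rw [hMv]
    simpa [qf] using h0 x
  obtain ⟨m, v, hv⟩ := Matrix.posSemidef_iff_eq_sum_vecMulVec.1 hpsd
  refine ⟨m, v, fun u => ?_⟩
  have h1 : qf D u = u ⬝ᵥ M.mulVec u := by rw [hMv]; rfl
  rw [h1, hv, Matrix.sum_mulVec, dotProduct_sum]
  refine Finset.sum_congr rfl fun i _ => ?_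
  rw [Matrix.vecMulVec_mulVec]
  simp only [star_trivial]
  rw [dotProduct_smul]
  simp only [MulOpposite.smul_eq_mul_unop, MulOpposite.unop_op]
  rw [dotProduct_comm u (v i)]
  ring

end Vale.Agent.P159.TM.H339
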