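import Vale.Agent.P159.TM.H339.Form

/-!
Row C1, fourth part: comparison of the coarse mass form with the uniform mass
(`kap (ε/M²) ≤ kap'`), from the mass monotonicity of H416.
-/

open MeasureTheory Filter Topology

namespace Vale.Agent.P159.TM.H339

open Vale.Agent.P159.TM

variable {V : Type} [Fintype V] {W : (V → ℤ) → ℝ} {B : ℝ} {A : (V → ℝ) →ₗ[ℝ] (V → ℝ)} {c : ℝ}

lemma FormGe.inj (hA : FormGe A c) : Function.Injective A := by
  rw [← LinearMap.ker_eq_bot, LinearMap.ker_eq_bot']
  intro u hu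
  have h1 := hA.low u
  have h2 : qf A u = 0 := by rw [qf, hu, dotProduct_zero]
  have h3 : ns u = 0 := by
    have := ns_nonneg u
    have hc := hA.pos
    nlinarith
  have h7 : ∀ v, u v ^ 2 = 0 := fun v =>
    (Finset.sum_eq_zero_iff_of_nonneg fun _ _ => sq_nonneg _).1 h3 v (Finset.mem_univ _)
  funext v
  simpa using pow_eq_zero_iff (two_ne_zero) |>.1 (h7 v)

lemma FormGe.surj (hA : FormGe A c) : Function.Surjective A :=
  LinearMap.surjective_of_injective hA.inj

lemma FormGe.qf_sub (hA : FormGe A c) (u f : V → ℝ) :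
    qf A (u - f) = qf A u - 2 * (f ⬝ᵥ A u) + qf A f := by
  have h := hA.sym u f
  simp only [qf, map_sub, sub_dotProduct, dotProduct_sub]
  rw [h]; ring

lemma FormGe.par (hA : FormGe A c) (f g : V → ℝ) :
    qf A (f + g) + qf A (f - g) = 2 * qf A f + 2 * qf A g := by
  have h := hA.sym f g
  simp only [qf, map_sub, map_add, sub_dotProduct, dotProduct_sub, add_dotProduct,
    dotProduct_add]
  ring

lemma pr_eq (u : V → ℝ) (h : V → ℤ) : H416.pr u h = u ⬝ᵥ rl h := rfl

/-- a real tilt is a real background -/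
lemma FormGe.Zl_eq (hA : FormGe A c) (W : (V → ℤ) → ℝ) (f : V → ℝ) :
    H416.Zl (fun h => W h * Real.exp (-(1 / 2) * qf A (rl h))) (A f) =
      Real.exp ((1 / 2) * qf A f) * ZF W A f := by
  rw [ZF, ← tsum_mul_left, H416.Zl]
  refine tsum_congr fun h => ?_
  have e : Real.exp (-(1 / 2) * qf A (rl h)) * Real.exp (H416.pr (A f) h) =
      Real.exp ((1 / 2) * qf A f) * Real.exp (-(1 / 2) * qf A (rl h - f)) := by
    rw [← Real.exp_add, ← Real.exp_add, hA.qf_sub, pr_eq]
    congr 1
    have h2 : A f ⬝ᵥ rl h = f ⬝ᵥ A (rl h) := by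
      rw [dotProduct_comm, hA.sym]
    rw [h2]; ring
  rw [mul_assoc, e]; ring

/-- the weight with the mass form `A` satisfies the hypotheses of H416 -/
lemma Good.wt (hW : Good W B) (hA : FormGe A c) :
    H416.Wt (fun h => W h * Real.exp (-(1 / 2) * qf A (rl h))) := by
  have hs : ∀ t : V → ℝ, Summable fun h : V → ℤ =>
      W h * Real.exp (-(1 / 2) * qf A (rl h)) * Real.exp (H416.pr t h) := by
    intro t
    obtain ⟨f, rfl⟩ := hA.surj t
    have h1 := (summable_ZF hW.nonneg hW.le hA.pos hA.low f).mul_left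
      (Real.exp ((1 / 2) * qf A f))
    refine h1.congr fun h => ?_
    have e : Real.exp (-(1 / 2) * qf A (rl h)) * Real.exp (H416.pr (A f) h) =
        Real.exp ((1 / 2) * qf A f) * Real.exp (-(1 / 2) * qf A (rl h - f)) := by
      rw [← Real.exp_add, ← Real.exp_add, hA.qf_sub, pr_eq]
      congr 1
      have h2 : A f ⬝ᵥ rl h = f ⬝ᵥ A (rl h) := by
        rw [dotProduct_comm, hA.sym]
      rw [h2]; ring
    rw [mul_assoc, e]; ring
  refine ⟨fun h => mul_nonneg (hW.nonneg h) (Real.exp_nonneg _), hs, ?_, ?_⟩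
  · have h := hW.ZF_pos hA 0
    have e : ZF W A 0 = ∑' h : V → ℤ, W h * Real.exp (-(1 / 2) * qf A (rl h)) := by
      rw [ZF]
      simp only [sub_zero]
    rwa [e] at h
  · intro t u
    obtain ⟨f, rfl⟩ := hA.surj t
    obtain ⟨g, rfl⟩ := hA.surj u
    rw [← map_add, ← map_sub, hA.Zl_eq, hA.Zl_eq, hA.Zl_eq, hA.Zl_eq]
    have h0 : H416.Zl (fun h => W h * Real.exp (-(1 / 2) * qf A (rl h))) 0 = ZF W A 0 := by
      have := hA.Zl_eq W 0
      rw [map_zero] at this
      rw [this]
      simp [qf]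
    rw [h0]
    have hg := hW.gin A c hA f g
    have hp := hA.par f g
    have e1 : (Real.exp ((1 / 2) * qf A f) * ZF W A f * (Real.exp ((1 / 2) * qf A g) *
        ZF W A g)) ^ 2 = Real.exp (qf A f + qf A g) * (ZF W A f * ZF W A g) ^ 2 := by
      have : Real.exp (qf A f + qf A g) =
          (Real.exp ((1 / 2) * qf A f) * Real.exp ((1 / 2) * qf A g)) ^ 2 := by
        rw [← Real.exp_add, ← Real.exp_nat_mul]
        congr 1
        push_cast; ring
      rw [this]; ring
    have e2 : Real.exp ((1 / 2) * qf A (f + g)) * ZF W A (f + g) *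
        (Real.exp ((1 / 2) * qf A (f - g)) * ZF W A (f - g)) * ZF W A 0 ^ 2 =
        Real.exp (qf A f + qf A g) * (ZF W A (f + g) * ZF W A (f - g) * ZF W A 0 ^ 2) := by
      have : Real.exp (qf A f + qf A g) =
          Real.exp ((1 / 2) * qf A (f + g)) * Real.exp ((1 / 2) * qf A (f - g)) := by
        rw [← Real.exp_add]
        congr 1
        linarith
      rw [this]; ring
    rw [e1, e2]
    exact mul_le_mul_of_nonneg_left hg (Real.exp_nonneg _)

/-- the form `e + Σ v vᵀ` -/
noncomputable def addv (e : ℝ) {ι : Type} (v : ι → V → ℝ) (S : Finset ι) :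
    (V → ℝ) →ₗ[ℝ] (V → ℝ) where
  toFun u := e • u + ∑ i ∈ S, (v i ⬝ᵥ u) • v i
  map_add' u w := by
    simp only [dotProduct_add, add_smul, Finset.sum_add_distrib, smul_add]
    abel
  map_smul' a u := by
    simp only [dotProduct_smul, smul_eq_mul, RingHom.id_apply, smul_add, Finset.smul_sum,
      smul_smul]
    rw [mul_comm e a]

lemma qf_addv (e : ℝ) {ι : Type} (v : ι → V → ℝ) (S : Finset ι) (u : V → ℝ) :
    qf (addv e v S) u = e * ns u + ∑ i ∈ S, (v i ⬝ᵥ u) ^ 2 := by
  simp only [qf, addv, LinearMap.coe_mk, AddHom.coe_mk, dotProduct_add, dotProduct_smul,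
    smul_eq_mul, dotProduct_sum, ns_eq]
  congr 1
  refine Finset.sum_congr rfl fun i _ => ?_
  rw [dotProduct_comm u (v i)]; ring

lemma addv_formGe {e : ℝ} (he : 0 < e) {ι : Type} (v : ι → V → ℝ) (S : Finset ι) :
    FormGe (addv e v S) e where
  pos := he
  low u := by
    rw [qf_addv]
    have := Finset.sum_nonneg (s := S) (f := fun i => (v i ⬝ᵥ u) ^ 2) fun i _ => sq_nonneg _
    linarith
  sym u w := by
    simp only [addv, LinearMap.coe_mk, AddHom.coe_mk, dotProduct_add, dotProduct_smul,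
      smul_eq_mul, dotProduct_sum]
    rw [dotProduct_comm u w]
    congr 1
    refine Finset.sum_congr rfl fun i _ => ?_
    rw [dotProduct_comm u (v i), dotProduct_comm w (v i)]; ring

/-- **variances decrease when the mass form increases from `e` to `A ≥ e`** -/
theorem Good.var_le [DecidableEq V] (hW : Good W B) {e : ℝ} (hA : FormGe A e) (u : V → ℝ) :
    H416.m2 (fun h => W h * Real.exp (-(1 / 2) * qf A (rl h))) u ≤
      H416.m2 (fun h => W h * Real.exp (-(e / 2) * ns (rl h))) u := by
  set D : (V → ℝ) →ₗ[ℝ] (V → ℝ) := A - e • LinearMap.id with hD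
  have hqD : ∀ u, qf D u = qf A u - e * ns u := fun u => by
    simp [hD, qf, dotProduct_sub, dotProduct_smul, smul_eq_mul, ns_eq]
  obtain ⟨m, v, hv⟩ := sum_squares (D := D) (fun u w => by
    simp only [hD, LinearMap.sub_apply, LinearMap.smul_apply, LinearMap.id_apply,
      dotProduct_sub, dotProduct_smul, smul_eq_mul]
    rw [hA.sym u w, dotProduct_comm u w]) (fun u => by
      rw [hqD]; linarith [hA.low u])
  set ρ : (V → ℤ) → ℝ := fun h => W h * Real.exp (-(e / 2) * ns (rl h)) with hρ
  have hadd : ∀ T : Finset (Fin m), H416.addm ρ v T =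
      fun h => W h * Real.exp (-(1 / 2) * qf (addv e v T) (rl h)) := by
    intro T
    funext h
    rw [H416.addm, hρ]
    simp only
    rw [mul_assoc, ← Real.exp_add, qf_addv]
    congr 2
    simp only [pr_eq]
    ring
  have h := H416.e7_form (ρ := ρ) v Finset.univ (fun T _ => by
    rw [hadd]; exact hW.wt (addv_formGe hA.pos v T)) (fun _ => 0) u
  rw [hadd] at h
  have e1 : (fun h : V → ℤ => W h * Real.exp (-(1 / 2) * qf (addv e v Finset.univ) (rl h))) =
      fun h => W h * Real.exp (-(1 / 2) * qf A (rl h)) := by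
    funext h
    have : qf (addv e v Finset.univ) (rl h) = qf A (rl h) := by
      rw [qf_addv, ← hv, hqD]; ring
    rw [this]
  rw [e1] at h
  simpa using h

end Vale.Agent.P159.TM.H339
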